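import Vale.Agent.P106.U.H785.Mtr

/-!
# P106 / U / H785 : the path of the true letters is admissible (helper785)

* `F_ga F_ka F_al` : numbers of the functional of `pa σ`.
* `ka_near` (1 unit of `2^-rr`, `rr = rk - ν`), `cN_near` (`4 K`), `al_near` : against the true functional.
* `pa_ok` : `Hy K I ω`, `σ k ∈ I` for all `k` ⇒ `(pa σ).Ok (8 K) ω`.
-/

set_option autoImplicit false

namespace Vale.Agent.P106.U.H785.Mtr

open Finset Vale.Agent.P127 Vale.Agent.P127.Stk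
open Vale.Agent.P127.U.CellD
open Vale.Agent.P106.U.Cell

namespace Mtd

variable {Ω π : Type} {D : Mtd Ω π} {K : ℝ} {I : Set ℕ} {ω : Ω} {i j : ℕ}

lemma rd_off (n : ℕ) (x o : ℝ) : |(fl1 n (x + o) : ℝ) / 2 ^ n - o - x| ≤ q2 n := by
  have h := rd_err n (x + o)
  rw [show (fl1 n (x + o) : ℝ) / 2 ^ n - o - x = rd n (x + o) - (x + o) by unfold rd; ring]
  exact h

/-- kappa of the letter -/
lemma ka_near (D : Mtd Ω π) (i : ℕ) (ω : Ω) : |D.kaL i (D.lt i ω) - D.κ i ω| ≤ q2 (D.rr i) := rd_off _ _ _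

/-- gamma (relative) of the letter -/
lemma u_near (D : Mtd Ω π) (i : ℕ) (ω : Ω) :
    |(D.uN i ω : ℝ) / 2 ^ D.rr i - D.oγ - D.u i ω| ≤ q2 (D.rr i) := rd_off _ _ _

lemma Nr_near (D : Mtd Ω π) (i : ℕ) (ω : Ω) : |(D.l ω).N (D.s i ω) - D.Nr i ω| ≤ q2 (D.a i) := by
  have h := rd_off (D.a i) ((D.l ω).N (D.s i ω)) (D.o 2)
  rw [abs_sub_comm] at h
  exact h

lemma rr_le (D : Mtd Ω π) (i : ℕ) : q2 (D.rk i) ≤ q2 (D.rr i) := q2_le (Nat.sub_le _ _)

lemma rr_mono (D : Mtd Ω π) (h : i ≤ j) : q2 (D.rr j) ≤ q2 (D.rr i) :=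
  q2_le (Nat.sub_le_sub_right (D.hk h) _)

/-- N-coefficient of the letter at the ray -/
noncomputable def cNL (D : Mtd Ω π) (i : ℕ) (ω : Ω) : ℝ :=
  D.gaL i (D.lt i ω) - D.kaL i (D.lt i ω) * (D.l ω).w - D.g i ω * (D.l ω).N (D.s i ω)

lemma prod_le {x y a b : ℝ} (hx : |x| * a ≤ b) (hy : |y| ≤ a) : |x * y| ≤ b := by
  rw [abs_mul]
  exact (mul_le_mul_of_nonneg_left hy (abs_nonneg _)).trans hx

/-- **the N-coefficient** -/
theorem cN_near (h1 : 1 ≤ K) (h : D.Hy K I ω) (hi : i ∈ I) : |D.cNL i ω - D.un ω| ≤ 4 * K * q2 (D.rr i) := by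
  have e1 := u_near D i ω
  have e2 := ka_near D i ω
  have e3 := Nr_near D i ω
  have e4 := rr_le D i
  have q := q2_pos (D.rr i)
  have e : D.cNL i ω - D.un ω = ((D.uN i ω : ℝ) / 2 ^ D.rr i - D.oγ - D.u i ω) -
      (D.kaL i (D.lt i ω) - D.κ i ω) * (D.l ω).w +
      (D.al i ω - D.g i ω) * ((D.l ω).N (D.s i ω) - D.Nr i ω) := by
    have e0 : D.gaL i (D.lt i ω) = (D.uN i ω : ℝ) / 2 ^ D.rr i - D.oγ + D.g i ω * D.Nr i ω := rfl
    unfold cNL
    rw [e0]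
    unfold u
    ring
  have t2 : |(D.kaL i (D.lt i ω) - D.κ i ω) * (D.l ω).w| ≤ 2 * q2 (D.rr i) := by
    rw [abs_mul, mul_comm 2]
    exact mul_le_mul e2 h.w1 (abs_nonneg _) q.le
  have t3 : |(D.al i ω - D.g i ω) * ((D.l ω).N (D.s i ω) - D.Nr i ω)| ≤ K * q2 (D.rr i) :=
    (prod_le (h.ap i hi) e3).trans (mul_le_mul_of_nonneg_left e4 (by linarith))
  rw [e]
  rw [abs_le] at e1 t2 t3 ⊢
  have : q2 (D.rr i) ≤ K * q2 (D.rr i) := by nlinarith
  constructor <;> linarith [e1.1, e1.2, t2.1, t2.2, t3.1, t3.2]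

section pa

variable {σ : ℕ → ℕ} {hσ : Monotone σ} {k k' : ℕ}

lemma pa_s (D : Mtd Ω π) (σ : ℕ → ℕ) (hσ : Monotone σ) (k : ℕ) (ω : Ω) :
    (D.pa σ hσ).s k ω = D.s (σ k) ω := rfl

lemma F_ga (D : Mtd Ω π) (σ : ℕ → ℕ) (hσ : Monotone σ) (k : ℕ) (ω : Ω) :
    ((D.pa σ hσ).F k ω).ga = D.gaL (σ k) (D.lt (σ k) ω) := rfl

lemma F_ka (D : Mtd Ω π) (σ : ℕ → ℕ) (hσ : Monotone σ) (k : ℕ) (ω : Ω) :
    ((D.pa σ hσ).F k ω).ka = D.kaL (σ k) (D.lt (σ k) ω) := rfl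

lemma F_al (D : Mtd Ω π) (σ : ℕ → ℕ) (hσ : Monotone σ) (k : ℕ) (ω : Ω) :
    ((D.pa σ hσ).F k ω).al = D.g (σ k) ω := rfl

lemma F_cN' (D : Mtd Ω π) (σ : ℕ → ℕ) (hσ : Monotone σ) (k : ℕ) (ω : Ω) :
    ((D.pa σ hσ).F k ω).cN ((D.pa σ hσ).l ω) ((D.pa σ hσ).s k ω) = D.cNL (σ k) ω := rfl

/-- **the path of the letters is admissible** -/
theorem pa_ok (h1 : 1 ≤ K) (h : D.Hy K I ω) (hI : ∀ k, σ k ∈ I) : (D.pa σ hσ).Ok (8 * K) ω := by
  have K0 : 0 < K := by linarith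
  have q : ∀ i, 0 < q2 (D.rr i) := fun i => q2_pos _
  have qs : ∀ i ∈ I, 12 * K * q2 (D.rr i) ≤ 1 := fun i hi => by
    have := h.r0 i hi
    have h2 : K * q2 (D.rr i) ≤ K ^ 2 * q2 (D.rr i) := by
      rw [pow_two]
      have := mul_le_mul_of_nonneg_right h1 (mul_nonneg K0.le (q i).le)
      nlinarith
    linarith
  refine ⟨h.v1, h.w1, h.p1, fun k => ?_, fun k => ?_, fun k => ?_, fun k => ?_, fun k k' hkk => ?_⟩
  · rw [F_cN']
    have e := cN_near h1 h (hI k)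
    rw [abs_le] at e
    have r0 := h.r0 _ (hI k)
    have n1 := h.n1
    have : K * (4 * K * q2 (D.rr (σ k))) ≤ 1 / 3 := by nlinarith
    have : K * D.cNL (σ k) ω ≥ K * (D.un ω - 4 * K * q2 (D.rr (σ k))) :=
      mul_le_mul_of_nonneg_left (by linarith [e.1]) K0.le
    nlinarith
  · rw [F_cN']
    have e := cN_near h1 h (hI k)
    rw [abs_le] at e
    have := qs _ (hI k)
    have n2 := h.n2
    linarith [e.2]
  · rw [F_ka]
    have e := ka_near D (σ k) ω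
    rw [abs_le] at e
    have k1 := h.k1 _ (hI k)
    rw [abs_le] at k1 ⊢
    have := qs _ (hI k)
    have h2 : q2 (D.rr (σ k)) ≤ 1 := by nlinarith [q (σ k)]
    constructor <;> linarith [e.1, e.2, k1.1, k1.2]
  · rw [F_al]
    have a1 := h.a1 _ (hI k)
    have ap := h.ap _ (hI k)
    have hq := q2_pos (D.a (σ k))
    have h2 : q2 (D.rk (σ k)) ≤ 1 := Pth.q2_le_one _
    have h3 : |D.g (σ k) ω| ≤ |D.al (σ k) ω| + |D.al (σ k) ω - D.g (σ k) ω| := by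
      have : D.g (σ k) ω = D.al (σ k) ω - (D.al (σ k) ω - D.g (σ k) ω) := by ring
      rw [this]
      refine (abs_sub _ _).trans ?_
      rw [sub_sub_cancel]
    have h4 := mul_le_mul_of_nonneg_right h3 hq.le
    have h5 : K * q2 (D.rk (σ k)) ≤ K := by nlinarith
    show |D.g (σ k) ω| * q2 (D.a (σ k)) ≤ 8 * K
    nlinarith
  · have hij := hσ hkk
    set i := σ k with hi
    set j := σ k' with hj
    have m := rr_mono D hij
    have rl := rr_le D i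
    have rl' : q2 (D.rk j) ≤ q2 (D.rk i) := q2_le (D.hk hij)
    have hqa : q2 (D.a j) ≤ q2 (D.a i) := q2_le (D.ha hij)
    have Iq := q i
    refine ⟨?_, ?_, ?_⟩
    · have sh := Fu.cN_sh ((D.pa σ hσ).F k ω) ((D.pa σ hσ).l ω) ((D.pa σ hσ).s k ω)
        ((D.pa σ hσ).s k' ω - (D.pa σ hσ).s k ω)
      rw [add_sub_cancel] at sh
      rw [sh, F_cN', F_cN']
      have e1 := cN_near h1 h (hI k)
      have e2 := cN_near h1 h (hI k')
      show |D.cNL j ω - D.cNL i ω| ≤ 8 * K * q2 (D.rr i)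
      have e3 : 4 * K * q2 (D.rr j) ≤ 4 * K * q2 (D.rr i) := mul_le_mul_of_nonneg_left m (by linarith)
      rw [abs_le] at e1 e2 ⊢
      constructor <;> linarith [e1.1, e1.2, e2.1, e2.2]
    · show |D.kaL j (D.lt j ω) - (D.kaL i (D.lt i ω) - (D.s j ω - D.s i ω) * D.g i ω)| ≤
        8 * K * q2 (D.rr i)
      have e1 := ka_near D i ω
      have e2 := ka_near D j ω
      have e3 := h.ka _ (hI k) _ (hI k') hij
      have e4 : K * q2 (D.rk i) ≤ K * q2 (D.rr i) := mul_le_mul_of_nonneg_left rl K0.le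
      have e5 : q2 (D.rr i) ≤ K * q2 (D.rr i) := by nlinarith
      rw [abs_le] at e1 e2 e3 ⊢
      rw [← hi, ← hj] at e3
      constructor <;> linarith [e1.1, e1.2, e2.1, e2.2, e3.1, e3.2]
    · show |D.g j ω - D.g i ω| * q2 (D.a j) ≤ 8 * K * q2 (D.rr i)
      have e1 := h.ap _ (hI k)
      have e2 := h.ap _ (hI k')
      have e3 := h.aa _ (hI k) _ (hI k') hij
      rw [← hi] at e1
      rw [← hj] at e2
      rw [← hi, ← hj] at e3
      have e4 : K * q2 (D.rk i) ≤ K * q2 (D.rr i) := mul_le_mul_of_nonneg_left rl K0.le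
      have e5 : K * q2 (D.rk j) ≤ K * q2 (D.rk i) := mul_le_mul_of_nonneg_left rl' K0.le
      have e6 : |D.g j ω - D.g i ω| ≤ |D.al j ω - D.g j ω| + |D.al j ω - D.al i ω| +
          |D.al i ω - D.g i ω| := by
        have : D.g j ω - D.g i ω = -(D.al j ω - D.g j ω) + (D.al j ω - D.al i ω) +
            (D.al i ω - D.g i ω) := by ring
        rw [this]
        refine (abs_add_le _ _).trans (add_le_add ((abs_add_le _ _).trans (add_le_add ?_ le_rfl)) le_rfl)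
        rw [abs_neg]
      have e7 := mul_le_mul_of_nonneg_right e6 (q2_pos (D.a j)).le
      have e8 : |D.al i ω - D.g i ω| * q2 (D.a j) ≤ |D.al i ω - D.g i ω| * q2 (D.a i) :=
        mul_le_mul_of_nonneg_left hqa (abs_nonneg _)
      nlinarith

end pa

end Mtd

end Vale.Agent.P106.U.H785.Mtr
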