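import Vale.Agent.P106.U.CellW

/-!
# P106 / U / H785 : the cells of the V windows (helper785, note 19914; decision 3, addendum 19977)

`Mtd` : data. `lt i ω` = the letter of the step `i`, WITHOUT history of the line:
`(fl1 (a i) t, prefix of the curvature, fl1 rr (κ i + oκ), fl1 rr (u i + oγ), fl1 (a i) (N (s i) + o 2))`, `rr i = rk i - ν`
  (`ν` = margin of kappa, `2 ν ≤ μ` for the users),
* `κ i` : the TRUE kappa at the rounded time `s i`; `al i` : the TRUE curvature; `un` : the TRUE N-coefficient on the ray;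
* `g i` : number of the exact prefix `pf i` (`|al i - g i| 2^-a ≤ K 2^-rk`);
* `u i = un + κ i w + al i (N (s i) - N~)`, `N~` = position rounded to `a i` digits : gamma, corrected by `N~` so that it does
  not depend on the prefix: all digits are digits of real numbers which do not depend on the precision `rk` (cap).
* `pa σ` : 101's path with the letters `lt (σ k)`, `rk := rr`; `cell k b` = letters and `mtr (σ k) b`.
* `mtr i b` : THE CELL = letter and 101's digits (`v`, seven numbers) of the slab functional of the letter.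
* `tf i` : the true functional of the step `i`.
-/

set_option autoImplicit false

namespace Vale.Agent.P106.U.H785.Mtr

open Finset Vale.Agent.P127 Vale.Agent.P127.Stk
open Vale.Agent.P127.U.CellD (q2 rd Nb fl1_fl1)
open Vale.Agent.P106.U.Cell

/-- data of the cells with true digits -/
structure Mtd (Ω π : Type) where
  /-- digits of the time, of the own slope, of the curvature prefix -/
  a : ℕ → ℕ
  rf : ℕ → ℕ
  rk : ℕ → ℕ
  ha : Monotone a
  hf : Monotone rf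
  hk : Monotone rk
  hkf : ∀ i, rk i ≤ rf i
  /-- margin of the cells, margin of kappa -/
  μ : ℕ
  ν : ℕ
  /-- offsets of the seven numbers, of kappa, of gamma -/
  o : Fin 7 → ℝ
  oκ : ℝ
  oγ : ℝ
  /-- the ray -/
  l : Ω → Ray
  /-- the time -/
  t : Ω → ℝ
  /-- own slope -/
  p : Ω → ℝ
  /-- true N-coefficient at the ray -/
  un : Ω → ℝ
  /-- true kappa at the rounded time of the step -/
  κ : ℕ → Ω → ℝ
  /-- true curvature -/
  al : ℕ → Ω → ℝ
  /-- the exact prefix of the curvature and its number -/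
  pf : ℕ → Ω → π
  gv : ℕ → π → ℝ

/-- type of the letter -/
abbrev Lt (π : Type) := ℤ × π × ℤ × ℤ × ℤ

namespace Mtd

variable {Ω π : Type} (D : Mtd Ω π)

/-- digits of kappa and gamma in the letter -/
def rr (i : ℕ) : ℕ := D.rk i - D.ν

/-- rounded time -/
noncomputable def s (i : ℕ) (ω : Ω) : ℝ := rd (D.a i) (D.t ω)

/-- number of the prefix -/
def g (i : ℕ) (ω : Ω) : ℝ := D.gv i (D.pf i ω)

/-- numerator of the N-position -/
noncomputable def nN (i : ℕ) (ω : Ω) : ℤ := fl1 (D.a i) ((D.l ω).N (D.s i ω) + D.o 2)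

/-- rounded N-position -/
noncomputable def Nr (i : ℕ) (ω : Ω) : ℝ := (D.nN i ω : ℝ) / 2 ^ D.a i - D.o 2

/-- gamma relative to the rounded position -/
noncomputable def u (i : ℕ) (ω : Ω) : ℝ :=
  D.un ω + D.κ i ω * (D.l ω).w + D.al i ω * ((D.l ω).N (D.s i ω) - D.Nr i ω)

/-- numerator of kappa -/
noncomputable def kN (i : ℕ) (ω : Ω) : ℤ := fl1 (D.rr i) (D.κ i ω + D.oκ)

/-- numerator of gamma -/
noncomputable def uN (i : ℕ) (ω : Ω) : ℤ := fl1 (D.rr i) (D.u i ω + D.oγ)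

/-- **the letter** -/
noncomputable def lt (i : ℕ) (ω : Ω) : Lt π := (fl1 (D.a i) (D.t ω), D.pf i ω, D.kN i ω, D.uN i ω, D.nN i ω)

/-- gamma of the letter -/
noncomputable def gaL (i : ℕ) (θ : Lt π) : ℝ :=
  (θ.2.2.2.1 : ℝ) / 2 ^ D.rr i - D.oγ + D.gv i θ.2.1 * ((θ.2.2.2.2 : ℝ) / 2 ^ D.a i - D.o 2)

/-- kappa of the letter -/
noncomputable def kaL (i : ℕ) (θ : Lt π) : ℝ := (θ.2.2.1 : ℝ) / 2 ^ D.rr i - D.oκ

/-- **the path of the letters** of the steps `σ 0 ≤ σ 1 ≤ ..` (letter = current letter and the earlier letters) -/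
noncomputable def pa (σ : ℕ → ℕ) (hσ : Monotone σ) : Pth Ω (Lt π × (ℕ → Option (Lt π))) where
  a := fun k => D.a (σ k)
  rf := fun k => D.rf (σ k)
  rk := fun k => D.rr (σ k)
  ha := D.ha.comp hσ
  hf := D.hf.comp hσ
  hk := fun i j h => Nat.sub_le_sub_right (D.hk (hσ h)) _
  hkf := fun i => (Nat.sub_le _ _).trans (D.hkf _)
  μ := D.μ
  o := D.o
  l := D.l
  t := D.t
  p := D.p
  T := fun k ω => (D.lt (σ k) ω, fun j => if j < k then some (D.lt (σ j) ω) else none)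
  tm := fun _ θ => θ.1.1
  ga := fun k θ => D.gaL (σ k) θ.1
  ka := fun k θ => D.kaL (σ k) θ.1
  al := fun k θ => D.gv (σ k) θ.1.2.1
  hT := by
    intro i ω ω' h
    have h2 := congrArg Prod.snd h
    refine Prod.ext ?_ ?_
    · have := congrFun h2 i
      simp only [lt_add_iff_pos_right, zero_lt_one, if_true, Option.some.injEq] at this
      exact this
    · funext j
      by_cases hj : j < i
      · have := congrFun h2 j
        simp only [show j < i + 1 by omega, if_true] at this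
        simp only [hj, if_true]
        exact this
      · simp only [hj, if_false]
  htm := fun _ _ => rfl

/-- the path of one letter -/
noncomputable def p1 (i : ℕ) : Pth Ω (Lt π × (ℕ → Option (Lt π))) := D.pa (fun _ => i) monotone_const

/-- the steps `i, j, j, ..` -/
def tw (i j : ℕ) (k : ℕ) : ℕ := if k = 0 then i else j

lemma tw_mono {i j : ℕ} (h : i ≤ j) : Monotone (tw i j) := by
  intro k k' hk
  unfold tw
  split_ifs <;> omega

/-- the path of two letters -/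
noncomputable def p2 (i j : ℕ) (h : i ≤ j) : Pth Ω (Lt π × (ℕ → Option (Lt π))) := D.pa (tw i j) (tw_mono h)

/-- relative thickness of the slab in the cell -/
def R (i b : ℕ) : ℕ := min (D.rr i + b) (D.rf i)

/-- **THE CELL of the V windows** : letter, `v` to `b` digits, seven numbers -/
noncomputable def mtr (i b : ℕ) (ω : Ω) : Lt π × Pth.Dg := (D.lt i ω, (D.p1 i).dg 0 b ω)

/-- the true functional at the step `i` -/
noncomputable def tf (i : ℕ) (ω : Ω) : Fu :=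
  ⟨D.un ω + D.κ i ω * (D.l ω).w + D.al i ω * (D.l ω).N (D.s i ω),
    D.p ω * D.un ω - D.κ i ω * (D.l ω).v - D.al i ω * (D.l ω).X (D.s i ω), D.κ i ω, D.al i ω⟩

/-- **frozen path** : the letter of the step `k` at all steps, with the time digits of the step; the levels of the steps
below `j` are those of `j` (`j ≤ k`; for own-slope steps `a j = a k`) -/
noncomputable def fz (j k : ℕ) : Pth Ω (Lt π × ℤ) where
  a := fun i => D.a (max i j)
  rf := fun i => D.rf (max i j)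
  rk := fun i => D.rr (min (max i j) k)
  ha := fun _ _ h => D.ha (max_le_max_right _ h)
  hf := fun _ _ h => D.hf (max_le_max_right _ h)
  hk := fun _ _ h => Nat.sub_le_sub_right (D.hk (min_le_min_right _ (max_le_max_right _ h))) _
  hkf := fun i => (Nat.sub_le _ _).trans ((D.hkf _).trans (D.hf (min_le_left _ _)))
  μ := D.μ
  o := D.o
  l := D.l
  t := D.t
  p := D.p
  T := fun i ω => (D.lt k ω, fl1 (D.a (max i j)) (D.t ω))
  tm := fun _ θ => θ.2
  ga := fun _ θ => D.gaL k θ.1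
  ka := fun i θ => D.kaL k θ.1 - ((θ.2 : ℝ) / 2 ^ D.a (max i j) - (θ.1.1 : ℝ) / 2 ^ D.a k) * D.gv k θ.1.2.1
  al := fun _ θ => D.gv k θ.1.2.1
  hT := by
    intro i ω ω' h
    have h1 := congrArg Prod.fst h
    have h2 := congrArg Prod.snd h
    exact Prod.ext h1 (fl1_fl1 (D.ha (max_le_max_right _ (Nat.le_succ i))) h2)
  htm := fun _ _ => rfl

/-- hypotheses for one `ω` and the steps `i ≤ j` of a set `I` -/
structure Hy (K : ℝ) (I : Set ℕ) (ω : Ω) : Prop where
  v1 : |(D.l ω).v| ≤ 2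
  w1 : |(D.l ω).w| ≤ 2
  p1 : |D.p ω| ≤ q2 (2 * D.μ)
  n1 : 1 ≤ K * D.un ω
  n2 : D.un ω ≤ K
  k1 : ∀ i ∈ I, |D.κ i ω| ≤ K
  a1 : ∀ i ∈ I, |D.al i ω| * q2 (D.a i) ≤ K
  /-- the prefix -/
  ap : ∀ i ∈ I, |D.al i ω - D.g i ω| * q2 (D.a i) ≤ K * q2 (D.rk i)
  /-- the true numbers of two steps -/
  ka : ∀ i ∈ I, ∀ j ∈ I, i ≤ j → |D.κ i ω - D.κ j ω - (D.s j ω - D.s i ω) * D.g i ω| ≤ K * q2 (D.rk i)
  aa : ∀ i ∈ I, ∀ j ∈ I, i ≤ j → |D.al j ω - D.al i ω| * q2 (D.a j) ≤ K * q2 (D.rk i)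
  /-- precision -/
  r0 : ∀ i ∈ I, 12 * K ^ 2 * q2 (D.rr i) ≤ 1

/-! ### the cells of the paths -/

lemma p1_R (i b : ℕ) : (D.p1 i).R 0 b = D.R i b := (D.p1 i).R_eq 0 b

lemma pa_dg (σ : ℕ → ℕ) (hσ : Monotone σ) (k b : ℕ) (ω : Ω) :
    (D.pa σ hσ).dg k b ω = (D.p1 (σ k)).dg 0 b ω := rfl

lemma pa_T_iff (σ : ℕ → ℕ) (hσ : Monotone σ) (k : ℕ) (ω ω' : Ω) :
    (D.pa σ hσ).T k ω = (D.pa σ hσ).T k ω' ↔ ∀ j ≤ k, D.lt (σ j) ω = D.lt (σ j) ω' := by
  constructor
  · intro h j hj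
    rcases hj.lt_or_eq with hj | hj
    · have := congrFun (congrArg Prod.snd h) j
      simp only [pa, hj, if_true, Option.some.injEq] at this
      exact this
    · subst hj
      exact congrArg Prod.fst h
  · intro h
    refine Prod.ext (h k le_rfl) ?_
    funext j
    by_cases hj : j < k
    · simp only [pa, hj, if_true]
      rw [h j hj.le]
    · simp only [pa, hj, if_false]

/-- the cell of the path = the earlier letters and the cell `mtr` -/
lemma pa_cell_iff (σ : ℕ → ℕ) (hσ : Monotone σ) (k b : ℕ) (ω ω' : Ω) :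
    (D.pa σ hσ).cell k b ω = (D.pa σ hσ).cell k b ω' ↔
      (∀ j < k, D.lt (σ j) ω = D.lt (σ j) ω') ∧ D.mtr (σ k) b ω = D.mtr (σ k) b ω' := by
  have e : (D.pa σ hσ).cell k b ω = (D.pa σ hσ).cell k b ω' ↔
      (D.pa σ hσ).T k ω = (D.pa σ hσ).T k ω' ∧ (D.p1 (σ k)).dg 0 b ω = (D.p1 (σ k)).dg 0 b ω' := by
    unfold Pth.cell
    rw [Prod.mk.injEq, pa_dg, pa_dg]
  have e' : D.mtr (σ k) b ω = D.mtr (σ k) b ω' ↔
      D.lt (σ k) ω = D.lt (σ k) ω' ∧ (D.p1 (σ k)).dg 0 b ω = (D.p1 (σ k)).dg 0 b ω' := by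
    unfold mtr
    rw [Prod.mk.injEq]
  rw [e, e', pa_T_iff]
  constructor
  · rintro ⟨h1, h2⟩
    exact ⟨fun j hj => h1 j hj.le, h1 k le_rfl, h2⟩
  · rintro ⟨h1, h2, h3⟩
    refine ⟨fun j hj => ?_, h3⟩
    rcases hj.lt_or_eq with hj | hj
    · exact h1 j hj
    · subst hj; exact h2

/-- one letter: the cell of the path is `mtr` -/
lemma p1_cell_iff (i k b : ℕ) (ω ω' : Ω) :
    (D.p1 i).cell k b ω = (D.p1 i).cell k b ω' ↔ D.mtr i b ω = D.mtr i b ω' := by
  unfold p1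
  rw [pa_cell_iff]
  constructor
  · exact fun h => h.2
  · exact fun h => ⟨fun _ _ => congrArg Prod.fst h, h⟩

/-- two letters: the first cell is `mtr i b` .. -/
lemma p2_cell0_iff (i j : ℕ) (h : i ≤ j) (b : ℕ) (ω ω' : Ω) :
    (D.p2 i j h).cell 0 b ω = (D.p2 i j h).cell 0 b ω' ↔ D.mtr i b ω = D.mtr i b ω' := by
  unfold p2
  rw [pa_cell_iff]
  exact ⟨fun h => h.2, fun h => ⟨fun j hj => absurd hj (Nat.not_lt_zero _), h⟩⟩

/-- .. the second one is `(letter of i, mtr j b)` -/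
lemma p2_cell1_iff (i j : ℕ) (h : i ≤ j) (b : ℕ) (ω ω' : Ω) :
    (D.p2 i j h).cell 1 b ω = (D.p2 i j h).cell 1 b ω' ↔
      D.lt i ω = D.lt i ω' ∧ D.mtr j b ω = D.mtr j b ω' := by
  unfold p2
  rw [pa_cell_iff]
  constructor
  · exact fun h => ⟨h.1 0 one_pos, h.2⟩
  · rintro ⟨h1, h2⟩
    refine ⟨fun k hk => ?_, h2⟩
    have : k = 0 := by omega
    subst this
    exact h1

/-! ### the frozen path -/

section fz

variable {j k : ℕ}

lemma fz_a (h : j ≤ k) : (D.fz j k).a k = D.a k := by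
  show D.a (max k j) = D.a k
  rw [max_eq_left h]

lemma fz_a' {i : ℕ} (h : j ≤ i) : (D.fz j k).a i = D.a i := by
  show D.a (max i j) = D.a i
  rw [max_eq_left h]

lemma fz_rf {i : ℕ} (h : j ≤ i) : (D.fz j k).rf i = D.rf i := by
  show D.rf (max i j) = D.rf i
  rw [max_eq_left h]

lemma fz_rk {i : ℕ} (h : j ≤ i) (h' : k ≤ i) : (D.fz j k).rk i = D.rr k := by
  show D.rr (min (max i j) k) = D.rr k
  rw [max_eq_left h, min_eq_right h']

lemma fz_s {i : ℕ} (h : j ≤ i) (ω : Ω) : (D.fz j k).s i ω = D.s i ω := by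
  unfold Pth.s s
  rw [fz_a' D h]
  rfl

/-- the functional of the frozen path = the functional of the letter, written at the rounded time -/
lemma fz_F {i : ℕ} (h : j ≤ i) (ω : Ω) : (D.fz j k).F i ω =
    ⟨D.gaL k (D.lt k ω), rd (D.rf i) (D.p ω) * (D.gaL k (D.lt k ω) -
      (D.kaL k (D.lt k ω) - (D.s i ω - D.s k ω) * D.g k ω) * (D.l ω).w - D.g k ω * (D.l ω).N (D.s i ω)) -
      (D.kaL k (D.lt k ω) - (D.s i ω - D.s k ω) * D.g k ω) * (D.l ω).v - D.g k ω * (D.l ω).X (D.s i ω),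
      D.kaL k (D.lt k ω) - (D.s i ω - D.s k ω) * D.g k ω, D.g k ω⟩ := by
  have e : ((fl1 (D.a (max i j)) (D.t ω) : ℤ) : ℝ) / 2 ^ D.a (max i j) = D.s i ω := by
    rw [max_eq_left h]; rfl
  have e' : D.rf (max i j) = D.rf i := by rw [max_eq_left h]
  unfold Pth.F Pth.Fv Pth.tv
  simp only [fz, e, e']
  rfl

lemma p1_F (ω : Ω) : (D.p1 k).F 0 ω =
    ⟨D.gaL k (D.lt k ω), rd (D.rf k) (D.p ω) * (D.gaL k (D.lt k ω) -
      D.kaL k (D.lt k ω) * (D.l ω).w - D.g k ω * (D.l ω).N (D.s k ω)) -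
      D.kaL k (D.lt k ω) * (D.l ω).v - D.g k ω * (D.l ω).X (D.s k ω),
      D.kaL k (D.lt k ω), D.g k ω⟩ := rfl

lemma fz_Fk (h : j ≤ k) (ω : Ω) : (D.fz j k).F k ω = (D.p1 k).F 0 ω := by
  rw [fz_F D h, p1_F]
  simp

lemma fz_R (h : j ≤ k) (b : ℕ) : (D.fz j k).R k b = D.R k b := by
  rw [Pth.R_eq, fz_rk D h le_rfl, fz_rf D h]
  rfl

lemma fz_bs (h : j ≤ k) (b : ℕ) : (D.fz j k).bs k b = (D.p1 k).bs 0 b := by
  unfold Pth.bs
  rw [fz_rk D h le_rfl, fz_rf D h]
  rfl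

lemma fz_dg (h : j ≤ k) (b : ℕ) (ω : Ω) : (D.fz j k).dg k b ω = (D.p1 k).dg 0 b ω := by
  have hs : (D.fz j k).s k ω = (D.p1 k).s 0 ω := fz_s D h ω
  have hF := fz_Fk D h ω
  have hR : (D.fz j k).R k b = (D.p1 k).R 0 b := by rw [fz_R D h, p1_R]
  have hb := fz_bs D h b
  have ha : (D.fz j k).a k = (D.p1 k).a 0 := fz_a D h
  have hsl : (D.fz j k).sl k b ω = (D.p1 k).sl 0 b ω := by
    unfold Pth.sl
    rw [hF, hb]
    rfl
  have hFr : (D.fz j k).Fr k b ((D.fz j k).R k b - 3 * (D.fz j k).μ) ω =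
      (D.p1 k).Fr 0 b ((D.p1 k).R 0 b - 3 * (D.p1 k).μ) ω := by
    unfold Pth.Fr
    rw [hF, hb, hsl, hR]
    rfl
  have hva : (D.fz j k).va k b ω = (D.p1 k).va 0 b ω := by
    unfold Pth.va
    rw [hsl, hs, hFr]
    rfl
  have hlv : (D.fz j k).lv k b = (D.p1 k).lv 0 b := by
    unfold Pth.lv
    rw [ha, hR]
    rfl
  unfold Pth.dg
  rw [hva, hlv]
  rfl

/-- **the cell of the frozen path is `mtr`** -/
lemma fz_cell_iff (h : j ≤ k) (b : ℕ) (ω ω' : Ω) :
    (D.fz j k).cell k b ω = (D.fz j k).cell k b ω' ↔ D.mtr k b ω = D.mtr k b ω' := by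
  unfold Pth.cell mtr
  rw [fz_dg D h, fz_dg D h]
  constructor
  · intro e
    have e1 := congrArg Prod.fst (congrArg Prod.fst e)
    have e2 : (D.p1 k).dg 0 b ω = (D.p1 k).dg 0 b ω' := congrArg Prod.snd e
    exact Prod.ext e1 e2
  · intro e
    have e1 : D.lt k ω = D.lt k ω' := congrArg Prod.fst e
    have e2 : (D.p1 k).dg 0 b ω = (D.p1 k).dg 0 b ω' := congrArg Prod.snd e
    have e3 : fl1 (D.a k) (D.t ω) = fl1 (D.a k) (D.t ω') := congrArg Prod.fst e1
    have e4 : (D.fz j k).T k ω = (D.fz j k).T k ω' := by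
      refine Prod.ext e1 ?_
      show fl1 (D.a (max k j)) (D.t ω) = fl1 (D.a (max k j)) (D.t ω')
      rw [max_eq_left h]
      exact e3
    exact Prod.ext e4 e2

end fz

end Mtd

end Vale.Agent.P106.U.H785.Mtr
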