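import Vale.Agent.P106.U.H785.MtrFz
import Vale.Agent.P106.U.S3.F2

/-!
# P106 / U / H785 : the hypotheses `Hy` of the true letters, over a run (helper785)

* `OfR R D I` : the data `D` are those of the run `R` (levels of the time, ray, time, own slope, true numbers; `μ ≤`).
* `hy_run` : `Run.Ok`, deep levels, prefix right to `rk` digits ⇒ `D.Hy (4 K) I ω` on the support.
* `p4` : `|p| ≤ q2 (4 μ)` if `2 μ ≤ R.C.μ`; `al_small` : `|al i| q2 (a i) ≤ 2 K q2 (2 μ)` if `2 μ ≤ a i`, `2 μ + m ≤ rI 0`.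
-/

set_option autoImplicit false

namespace Vale.Agent.P106.U.H785.Mtr

open Finset Vale.Agent.P127 Vale.Agent.P127.Stk
open Vale.Agent.P127.U.CellD
open Vale.Agent.P106.U.Cell

variable {Ω : Type} [Fintype Ω] {τ υ π : Type}

/-- the data are those of the run -/
structure OfR (R : S3.Run Ω τ υ) (D : Mtd Ω π) : Prop where
  a : D.a = R.C.a
  l : D.l = R.C.l
  t : D.t = R.C.t
  p : D.p = R.C.p
  μ : D.μ ≤ R.C.μ
  un : ∀ ω, D.un ω = (R.FW ω).cN (R.C.l ω) (R.tW ω)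
  κ : ∀ k ω, D.κ k ω = S3.kaL R k ω
  al : ∀ k ω, D.al k ω = R.al k ω

namespace OfR

variable {R : S3.Run Ω τ υ} {D : Mtd Ω π} {p : S3.Run.Num} {K c' g' gU : ℝ} {I : Set ℕ} {ω : Ω}

lemma tW_near (hok : R.Ok p K c' g' gU) {i : ℕ} (hi : i ≤ R.n + p.J) (ω : Ω) :
    |R.tW ω - R.C.s i ω| ≤ q2 (R.C.a i) := by
  have h1 : R.C.a i ≤ R.h := (R.C.ha hi).trans hok.pth.rA
  have h2 : R.C.s i ω = rd (R.C.a i) (R.t ω) := by
    unfold Pth.s
    rw [hok.Ct]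
  unfold S3.Run.tW
  rw [h2]
  exact rd_sub h1 _

/-- differences of the slopes of the lines -/
lemma al_sub (hok : R.Ok p K c' g' gU) {i j : ℕ} (hij : i ≤ j) (hj : j ≤ R.n + p.J) (hω : 0 < R.Q.w ω) {r : ℕ}
    (hr : r + R.m ≤ R.rI i) : |R.al j ω - R.al i ω| * q2 (R.C.a j) ≤ K * q2 r := by
  have h := hok.alD i j hij hj ω hω
  have q0 := q2_pos R.m
  have e : q2 (R.C.a j + R.m) = q2 (R.C.a j) * q2 R.m := q2_add _ _
  have e2 : q2 (R.rI i) ≤ q2 r * q2 R.m := by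
    rw [← q2_add]
    exact q2_le hr
  have hK : 0 ≤ K := by
    by_contra hK
    push Not at hK
    have h0 := hok.ok ω hω
    have := (abs_nonneg _).trans (h0.k1 0)
    linarith
  rw [e, ← mul_assoc] at h
  have h3 : |R.al j ω - R.al i ω| * q2 (R.C.a j) * q2 R.m ≤ K * q2 r * q2 R.m := by
    rw [mul_assoc K]
    exact h.trans (mul_le_mul_of_nonneg_left e2 hK)
  exact le_of_mul_le_mul_right h3 q0

/-- **the hypotheses of the true letters** -/
theorem hy_run (hD : OfR R D) (hok : R.Ok p K c' g' gU) (h1 : 1 ≤ K) (hω : 0 < R.Q.w ω)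
    (hr0 : 4 * K ^ 2 * q2 (R.C.rk 0) ≤ 1) (hI : ∀ i ∈ I, i ≤ R.n + p.J)
    (deep : ∀ i ∈ I, D.rk i + R.m ≤ R.rI i)
    (hpf : ∀ i ∈ I, |R.al i ω - D.g i ω| * q2 (R.C.a i) ≤ K * q2 (D.rk i))
    (hrr : ∀ i ∈ I, 192 * K ^ 2 * q2 (D.rr i) ≤ 1) : D.Hy (4 * K) I ω := by
  have K0 : 0 < K := by linarith
  have ok := hok.ok ω hω
  have hμ := q2_le (Nat.mul_le_mul_left 2 hD.μ)
  have agW := hok.agW ω hω 0 (Nat.zero_le _)
  have s0 := tW_near hok (Nat.zero_le (R.n + p.J)) ω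
  have q0 := q2_pos (R.C.rk 0)
  have Kq : K * q2 (R.C.rk 0) ≤ 1 / (4 * K) := by
    rw [le_div_iff₀ (by positivity)]
    nlinarith
  have hun := hD.un ω
  have cN0 : |(R.FW ω).cN (R.C.l ω) (R.tW ω) - (R.C.F 0 ω).cN (R.C.l ω) (R.C.s 0 ω)| ≤
      K * q2 (R.C.rk 0) := by
    have e := agW.cN
    have sh := Fu.cN_sh (R.C.F 0 ω) (R.C.l ω) (R.C.s 0 ω) (R.tW ω - R.C.s 0 ω)
    rw [add_sub_cancel] at sh
    rwa [sh] at e
  have q01 := Pth.q2_le_one (R.C.rk 0)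
  have hal : ∀ i ∈ I, |R.al i ω| * q2 (R.C.a i) ≤ K := fun i hi => hok.alB i (hI i hi) ω hω
  have kap : |R.κ ω| ≤ 3 * K := by
    have e := agW.ka
    have e1 := ok.k1 0
    have e2 := ok.a1 0
    have e3 : |(R.tW ω - R.C.s 0 ω) * (R.C.F 0 ω).al| ≤ K := by
      rw [abs_mul, mul_comm]
      exact (mul_le_mul_of_nonneg_left s0 (abs_nonneg _)).trans e2
    have e4 : K * q2 (R.C.rk 0) ≤ K := by nlinarith
    have e5 : ((R.C.F 0 ω).sh (R.tW ω - R.C.s 0 ω)).ka =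
        (R.C.F 0 ω).ka - (R.tW ω - R.C.s 0 ω) * (R.C.F 0 ω).al := rfl
    rw [e5] at e
    show |(R.FW ω).ka| ≤ 3 * K
    rw [abs_le] at e e1 e3 ⊢
    constructor <;> linarith [e.1, e.2, e1.1, e1.2, e3.1, e3.2]
  refine ⟨?_, ?_, ?_, ?_, ?_, ?_, ?_, ?_, ?_, ?_, ?_⟩
  · rw [hD.l]; exact ok.v1
  · rw [hD.l]; exact ok.w1
  · rw [hD.p]; exact ok.p1.trans hμ
  · rw [hun]
    have n1 := ok.n1 0
    rw [abs_le] at cN0
    have : K * (R.FW ω).cN (R.C.l ω) (R.tW ω) ≥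
        K * ((R.C.F 0 ω).cN (R.C.l ω) (R.C.s 0 ω) - 1 / (4 * K)) :=
      mul_le_mul_of_nonneg_left (by linarith [cN0.1]) K0.le
    have e : K * (1 / (4 * K)) = 1 / 4 := by field_simp
    nlinarith
  · rw [hun]
    have n2 := ok.n2 0
    rw [abs_le] at cN0
    have : K * q2 (R.C.rk 0) ≤ K := by nlinarith
    linarith [cN0.2]
  · intro i hi
    rw [hD.κ]
    unfold S3.kaL
    have e := tW_near hok (hI i hi) ω
    have e3 : |R.al i ω * (R.tW ω - R.C.s i ω)| ≤ K := by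
      rw [abs_mul]
      exact (mul_le_mul_of_nonneg_left e (abs_nonneg _)).trans (hal i hi)
    refine (abs_add_le _ _).trans ?_
    linarith
  · intro i hi
    rw [hD.al, hD.a]
    linarith [hal i hi]
  · intro i hi
    rw [hD.al, hD.a]
    have := hpf i hi
    have := q2_pos (D.rk i)
    nlinarith
  · intro i hi j hj hij
    have t1 := tW_near hok (hI j hj) ω
    have t2 := al_sub hok hij (hI j hj) hω (deep i hi)
    have t3 := hpf i hi
    have es : ∀ k, D.s k ω = R.C.s k ω := fun k => by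
      unfold Mtd.s Pth.s
      rw [hD.a, hD.t]
    have t4 : |R.C.s j ω - R.C.s i ω| ≤ q2 (R.C.a i) := rd_sub (R.C.ha hij) _
    rw [hD.κ, hD.κ, es, es]
    unfold S3.kaL
    have e1 : |(R.al j ω - R.al i ω) * (R.tW ω - R.C.s j ω)| ≤ K * q2 (D.rk i) := by
      rw [abs_mul]
      exact (mul_le_mul_of_nonneg_left t1 (abs_nonneg _)).trans t2
    have e2 : |(R.al i ω - D.g i ω) * (R.C.s j ω - R.C.s i ω)| ≤ K * q2 (D.rk i) := by
      rw [abs_mul]
      exact (mul_le_mul_of_nonneg_left t4 (abs_nonneg _)).trans t3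
    have e3 : R.κ ω + R.al i ω * (R.tW ω - R.C.s i ω) - (R.κ ω + R.al j ω * (R.tW ω - R.C.s j ω)) -
        (R.C.s j ω - R.C.s i ω) * D.g i ω = -((R.al j ω - R.al i ω) * (R.tW ω - R.C.s j ω)) +
        (R.al i ω - D.g i ω) * (R.C.s j ω - R.C.s i ω) := by ring
    rw [e3]
    have := q2_pos (D.rk i)
    rw [abs_le] at e1 e2 ⊢
    constructor <;> nlinarith [e1.1, e1.2, e2.1, e2.2]
  · intro i hi j hj hij
    rw [hD.al, hD.al, hD.a]
    have t2 := al_sub hok hij (hI j hj) hω (deep i hi)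
    have := q2_pos (D.rk i)
    nlinarith
  · intro i hi
    have := hrr i hi
    nlinarith

/-- own slope, with a lowered margin -/
theorem p4 (hD : OfR R D) (hok : R.Ok p K c' g' gU) (hω : 0 < R.Q.w ω) (hμ : 2 * D.μ ≤ R.C.μ) :
    |D.p ω| ≤ q2 (4 * D.μ) := by
  rw [hD.p]
  exact (hok.ok ω hω).p1.trans (q2_le (by omega))

/-- the curvature is small in its own ball -/
theorem al_small (hD : OfR R D) (hok : R.Ok p K c' g' gU) (hω : 0 < R.Q.w ω) {i s : ℕ} (hi : i ≤ R.n + p.J)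
    (ha : s ≤ R.C.a i) (hr : s + R.m ≤ R.rI 0) : |D.al i ω| * q2 (D.a i) ≤ 2 * K * q2 s := by
  rw [hD.al, hD.a]
  have t1 := al_sub hok (Nat.zero_le i) hi hω hr
  have t2 := hok.alB 0 (Nat.zero_le _) ω hω
  have a0 : R.C.a 0 = 0 := hok.pth.a0
  have q0 : q2 (R.C.a 0) = 1 := by rw [a0]; unfold q2; norm_num
  rw [q0, mul_one] at t2
  have h2 : q2 (R.C.a i) ≤ q2 s := q2_le ha
  have h3 : |R.al i ω| ≤ |R.al i ω - R.al 0 ω| + |R.al 0 ω| := by
    have := abs_add_le (R.al i ω - R.al 0 ω) (R.al 0 ω)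
    rwa [sub_add_cancel] at this
  have h4 := mul_le_mul_of_nonneg_right h3 (q2_pos (R.C.a i)).le
  have h5 : |R.al 0 ω| * q2 (R.C.a i) ≤ K * q2 s :=
    mul_le_mul t2 h2 (q2_pos _).le ((abs_nonneg _).trans t2)
  nlinarith

end OfR

end Vale.Agent.P106.U.H785.Mtr
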