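import Vale.Agent.P106.U.H785.MtrF2

/-!
# P106 / U / H785 : runs of young levels without cuts (helper785)

`diag_run` : a-steps of one run are diagonal.  `CutP` = the conclusion of the field `cut` of `S3.F2` for a set `Cu` of levels.
* `CutP.run` : steps `i ≤ j` of one run without cuts: `pf j` is a function of `pf i`, one variable `Ao`.
* `al_run`, `g_run`, `g0_run` : slopes and numbers of two such steps agree to `rk i` digits (`(wa)` of 466 / 25, constant `3 K`).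
-/

set_option autoImplicit false

namespace Vale.Agent.P106.U.H785.Mtr

open Finset Vale.Agent.P127 Vale.Agent.P127.Stk
open Vale.Agent.P127.U.CellD
open Vale.Agent.P106.U.Cell

variable {Ω : Type} [Fintype Ω] {τ υ π : Type}
variable {R : S3.Run Ω τ υ} {p : S3.Run.Num} {K c' g' gU : ℝ} {B bS bV μ : ℕ} {F : S3.Pf R π} {Vs Xs Cu : Finset ℕ}
  {o : Fin 7 → ℝ} {o' : ℕ → ℝ} {ω : Ω} {i j k : ℕ}

/-- the conclusion of the field `cut` for the set `Cu` -/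
def CutP (R : S3.Run Ω τ υ) (p : S3.Run.Num) (F : S3.Pf R π) (Vs Cu : Finset ℕ) : Prop :=
  ∀ i j, i ≤ j → j ≤ R.n + p.J → S3.lv R i ∈ Vs → S3.lv R j ∈ Vs →
    S3.lv R j ≤ S3.lv R i + 1 → (S3.lv R i = S3.lv R j ∨ S3.lv R i ∉ Cu) →
    Fn R.Q (F.pf j) (F.pf i) ∧ ∀ ω, 0 < R.Q.w ω → F.Ao (S3.lv R j) ω = F.Ao (S3.lv R i) ω

/-- levels do not jump -/
lemma lv_step (hp : R.Path p) (hi : i < R.n + p.J) : S3.lv R (i + 1) ≤ S3.lv R i + 1 := by
  have m1 := hp.m1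
  unfold S3.lv
  rcases hp.stp i hi with h | h | h
  · rw [h.1, Nat.add_div_right _ (by omega)]
  · rw [h.1]; omega
  · rw [h.1]; omega

/-- **one variable along a run without cuts** -/
theorem CutP.run (hC : CutP R p F Vs Cu) (hp : R.Path p) (hij : i ≤ j) (hj : j ≤ R.n + p.J)
    (hV : ∀ k, i ≤ k → k ≤ j → S3.lv R k ∈ Vs)
    (hcut : ∀ k, i ≤ k → k < j → S3.lv R k = S3.lv R (k + 1) ∨ S3.lv R k ∉ Cu) :
    Fn R.Q (F.pf j) (F.pf i) ∧ ∀ ω, 0 < R.Q.w ω → F.Ao (S3.lv R j) ω = F.Ao (S3.lv R i) ω := by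
  induction j, hij using Nat.le_induction with
  | base => exact ⟨fun ω ω' _ _ h => h, fun _ _ => rfl⟩
  | succ k hk ih =>
    have h1 := ih (by omega) (fun l h h' => hV l h (by omega)) (fun l h h' => hcut l h (by omega))
    have h2 := hC k (k + 1) (Nat.le_succ k) hj (hV k hk (Nat.le_succ k)) (hV (k + 1) (by omega) le_rfl)
      (lv_step hp (by omega)) (hcut k hk (Nat.lt_succ_self k))
    refine ⟨fun ω ω' hω hω' h => h2.1 ω ω' hω hω' (h1.1 ω ω' hω hω' h), fun ω hω => ?_⟩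
    rw [h2.2 ω hω, h1.2 ω hω]

/-- slopes of two steps with the same `Ao` -/
theorem al_run (hf : S3.F2 R p K B bS bV F Vs Xs) (hj : j ≤ R.n + p.J) (hij : i ≤ j)
    (hv : S3.lv R i ∈ Vs) (hv' : S3.lv R j ∈ Vs) (hd : R.C.rk i + (R.C.a j - R.C.a i) ≤ R.C.rk j)
    (hω : 0 < R.Q.w ω) (hA : F.Ao (S3.lv R j) ω = F.Ao (S3.lv R i) ω) :
    |R.al j ω - R.al i ω| * q2 (R.C.a i) ≤ 2 * K * q2 (R.C.rk i + R.m * B) := by
  have h1 := hf.aoA i (hij.trans hj) hv ω hω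
  have h2 := hf.aoA j hj hv' ω hω
  have ha := R.C.ha hij
  have e1 : q2 (R.C.a i) * q2 (R.C.a j - R.C.a i) = q2 (R.C.a j) := by
    rw [← q2_add]; congr 1; omega
  have e2 : q2 (R.C.rk j + R.m * B) ≤ q2 (R.C.rk i + R.m * B) * q2 (R.C.a j - R.C.a i) := by
    rw [← q2_add]; exact q2_le (by omega)
  have q0 := q2_pos (R.C.a j - R.C.a i)
  have K0 : 0 ≤ K := by
    have := (mul_nonneg (abs_nonneg _) (q2_pos _).le).trans h1
    exact nonneg_of_mul_nonneg_left this (q2_pos _)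
  have h3 : |R.al j ω - F.Ao (S3.lv R j) ω| * q2 (R.C.a i) ≤ K * q2 (R.C.rk i + R.m * B) := by
    refine le_of_mul_le_mul_right ?_ q0
    calc |R.al j ω - F.Ao (S3.lv R j) ω| * q2 (R.C.a i) * q2 (R.C.a j - R.C.a i)
        = |R.al j ω - F.Ao (S3.lv R j) ω| * q2 (R.C.a j) := by rw [mul_assoc, e1]
      _ ≤ K * q2 (R.C.rk j + R.m * B) := h2
      _ ≤ K * (q2 (R.C.rk i + R.m * B) * q2 (R.C.a j - R.C.a i)) := mul_le_mul_of_nonneg_left e2 K0
      _ = _ := by ring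
  rw [hA] at h3
  have h4 : |R.al j ω - R.al i ω| ≤ |R.al j ω - F.Ao (S3.lv R i) ω| + |R.al i ω - F.Ao (S3.lv R i) ω| := by
    have := abs_sub_le (R.al j ω) (F.Ao (S3.lv R i) ω) (R.al i ω)
    rwa [abs_sub_comm (F.Ao (S3.lv R i) ω)] at this
  have h5 := mul_le_mul_of_nonneg_right h4 (q2_pos (R.C.a i)).le
  rw [add_mul] at h5
  linarith

/-- **(wa)** : numbers of the prefixes of two steps of a run -/
theorem g_run (hf : S3.F2 R p K B bS bV F Vs Xs) (hj : j ≤ R.n + p.J) (hij : i ≤ j)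
    (hv : S3.lv R i ∈ Vs) (hv' : S3.lv R j ∈ Vs) (hd : R.C.rk i + (R.C.a j - R.C.a i) ≤ R.C.rk j)
    (hB : 1 ≤ R.m * B) (hω : 0 < R.Q.w ω) (hA : F.Ao (S3.lv R j) ω = F.Ao (S3.lv R i) ω) :
    |F.gv j (F.pf j ω) - F.gv i (F.pf i ω)| * q2 (R.C.a i) ≤ 3 * K * q2 (R.C.rk i) := by
  have h0 := al_run hf hj hij hv hv' hd hω hA
  have h1 := hf.gvA i (hij.trans hj) ω hω
  have h2 := hf.gvA j hj ω hω
  have ha := R.C.ha hij
  have e1 : q2 (R.C.a i) * q2 (R.C.a j - R.C.a i) = q2 (R.C.a j) := by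
    rw [← q2_add]; congr 1; omega
  have e2 : q2 (R.C.rk j) ≤ q2 (R.C.rk i) * q2 (R.C.a j - R.C.a i) := by
    rw [← q2_add]; exact q2_le hd
  have q0 := q2_pos (R.C.a j - R.C.a i)
  have K0 : 0 ≤ K := by
    have := (mul_nonneg (abs_nonneg _) (q2_pos _).le).trans h1
    exact nonneg_of_mul_nonneg_left this (q2_pos _)
  have h3 : |R.al j ω - F.gv j (F.pf j ω)| * q2 (R.C.a i) ≤ K * q2 (R.C.rk i) := by
    refine le_of_mul_le_mul_right ?_ q0
    calc |R.al j ω - F.gv j (F.pf j ω)| * q2 (R.C.a i) * q2 (R.C.a j - R.C.a i)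
        = |R.al j ω - F.gv j (F.pf j ω)| * q2 (R.C.a j) := by rw [mul_assoc, e1]
      _ ≤ K * q2 (R.C.rk j) := h2
      _ ≤ K * (q2 (R.C.rk i) * q2 (R.C.a j - R.C.a i)) := mul_le_mul_of_nonneg_left e2 K0
      _ = _ := by ring
  have e3 : q2 (R.C.rk i + R.m * B) ≤ q2 (R.C.rk i) / 2 := by
    have : q2 (R.C.rk i + R.m * B) ≤ q2 (R.C.rk i + 1) := q2_le (by omega)
    have e : q2 (R.C.rk i + 1) = q2 (R.C.rk i) / 2 := by
      rw [q2_add]; unfold q2; norm_num; ring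
    linarith
  have h4 : |F.gv j (F.pf j ω) - F.gv i (F.pf i ω)| ≤ |R.al j ω - F.gv j (F.pf j ω)| +
      |R.al j ω - R.al i ω| + |R.al i ω - F.gv i (F.pf i ω)| := by
    have a := abs_sub_le (F.gv j (F.pf j ω)) (R.al j ω) (F.gv i (F.pf i ω))
    have b := abs_sub_le (R.al j ω) (R.al i ω) (F.gv i (F.pf i ω))
    rw [abs_sub_comm (F.gv j (F.pf j ω)) (R.al j ω)] at a
    linarith
  have h5 := mul_le_mul_of_nonneg_right h4 (q2_pos (R.C.a i)).le
  rw [add_mul, add_mul] at h5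
  have h6 : 2 * K * q2 (R.C.rk i + R.m * B) ≤ K * q2 (R.C.rk i) := by
    have := mul_le_mul_of_nonneg_left e3 (by linarith : 0 ≤ 2 * K)
    linarith
  linarith

/-- the same for the numbers of the precision `rk0` -/
theorem g0_run (hf : S3.F2 R p K B bS bV F Vs Xs) (hj : j ≤ R.n + p.J) (hij : i ≤ j)
    (hv : S3.lv R i ∈ Vs) (hv' : S3.lv R j ∈ Vs) (hd : R.C.rk i + (R.C.a j - R.C.a i) ≤ R.C.rk j)
    (hd0 : F.rk0 i + (R.C.a j - R.C.a i) ≤ F.rk0 j)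
    (hB : 1 ≤ R.m * B) (hω : 0 < R.Q.w ω) (hA : F.Ao (S3.lv R j) ω = F.Ao (S3.lv R i) ω) :
    |F.gv0 j (F.pf j ω) - F.gv0 i (F.pf i ω)| * q2 (R.C.a i) ≤ 3 * K * q2 (F.rk0 i) := by
  have h0 := al_run hf hj hij hv hv' hd hω hA
  have h1 := hf.gv0A i (hij.trans hj) ω hω
  have h2 := hf.gv0A j hj ω hω
  have ha := R.C.ha hij
  have e1 : q2 (R.C.a i) * q2 (R.C.a j - R.C.a i) = q2 (R.C.a j) := by
    rw [← q2_add]; congr 1; omega
  have e2 : q2 (F.rk0 j) ≤ q2 (F.rk0 i) * q2 (R.C.a j - R.C.a i) := by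
    rw [← q2_add]; exact q2_le hd0
  have q0 := q2_pos (R.C.a j - R.C.a i)
  have K0 : 0 ≤ K := by
    have := (mul_nonneg (abs_nonneg _) (q2_pos _).le).trans h1
    exact nonneg_of_mul_nonneg_left this (q2_pos _)
  have h3 : |R.al j ω - F.gv0 j (F.pf j ω)| * q2 (R.C.a i) ≤ K * q2 (F.rk0 i) := by
    refine le_of_mul_le_mul_right ?_ q0
    calc |R.al j ω - F.gv0 j (F.pf j ω)| * q2 (R.C.a i) * q2 (R.C.a j - R.C.a i)
        = |R.al j ω - F.gv0 j (F.pf j ω)| * q2 (R.C.a j) := by rw [mul_assoc, e1]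
      _ ≤ K * q2 (F.rk0 j) := h2
      _ ≤ K * (q2 (F.rk0 i) * q2 (R.C.a j - R.C.a i)) := mul_le_mul_of_nonneg_left e2 K0
      _ = _ := by ring
  have e3 : q2 (R.C.rk i + R.m * B) ≤ q2 (F.rk0 i) / 2 := by
    have l0 := F.l0 i
    have : q2 (R.C.rk i + R.m * B) ≤ q2 (F.rk0 i + 1) := q2_le (by omega)
    have e : q2 (F.rk0 i + 1) = q2 (F.rk0 i) / 2 := by
      rw [q2_add]; unfold q2; norm_num; ring
    linarith
  have h4 : |F.gv0 j (F.pf j ω) - F.gv0 i (F.pf i ω)| ≤ |R.al j ω - F.gv0 j (F.pf j ω)| +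
      |R.al j ω - R.al i ω| + |R.al i ω - F.gv0 i (F.pf i ω)| := by
    have a := abs_sub_le (F.gv0 j (F.pf j ω)) (R.al j ω) (F.gv0 i (F.pf i ω))
    have b := abs_sub_le (R.al j ω) (R.al i ω) (F.gv0 i (F.pf i ω))
    rw [abs_sub_comm (F.gv0 j (F.pf j ω)) (R.al j ω)] at a
    linarith
  have h5 := mul_le_mul_of_nonneg_right h4 (q2_pos (R.C.a i)).le
  rw [add_mul, add_mul] at h5
  have h6 : 2 * K * q2 (R.C.rk i + R.m * B) ≤ K * q2 (F.rk0 i) := by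
    have := mul_le_mul_of_nonneg_left e3 (by linarith : 0 ≤ 2 * K)
    linarith
  linarith

/-- (wa) for the data `mt` -/
theorem wa_mt (hf : S3.F2 R p K B bS bV F Vs Xs) (hj : j ≤ R.n + p.J) (hij : i ≤ j)
    (hv : S3.lv R i ∈ Vs) (hv' : S3.lv R j ∈ Vs) (hd : R.C.rk i + (R.C.a j - R.C.a i) ≤ R.C.rk j)
    (hB : 1 ≤ R.m * B) (hω : 0 < R.Q.w ω) (hA : F.Ao (S3.lv R j) ω = F.Ao (S3.lv R i) ω) :
    |(S3.mt R F μ o o').g j ω - (S3.mt R F μ o o').g i ω| * q2 ((S3.mt R F μ o o').a i) ≤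
      3 * K * q2 ((S3.mt R F μ o o').rk i) :=
  g_run hf hj hij hv hv' hd hB hω hA

/-- the a-step of the next level -/
lemma next_a (hp : R.Path p) (hj : j < R.n + p.J) (hij : i < j) (hi : R.IsA i) (hjA : R.IsA j) :
    ∃ k, i < k ∧ k ≤ j ∧ R.IsA k ∧ R.C.a k = R.C.a i + R.m := by
  have m1 := hp.m1
  have hi' : R.C.a (i + 1) = R.C.a i + R.m := hi
  have hex : R.C.a (i + 1) ≤ R.C.a i + R.m := hi'.le
  let k := Nat.findGreatest (fun k => R.C.a k ≤ R.C.a i + R.m) j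
  have k1 : i + 1 ≤ k := Nat.le_findGreatest (by omega) hex
  have k2 : k ≤ j := Nat.findGreatest_le j
  have k3 : R.C.a k ≤ R.C.a i + R.m :=
    Nat.findGreatest_spec (P := fun k => R.C.a k ≤ R.C.a i + R.m) (m := i + 1) (by omega) hex
  have k4 : R.C.a (i + 1) ≤ R.C.a k := R.C.ha k1
  have k5 : R.C.a k = R.C.a i + R.m := by omega
  refine ⟨k, by omega, k2, ?_, k5⟩
  rcases k2.eq_or_lt with h | h
  · rw [h]; exact hjA
  · have h1 : ¬ R.C.a (k + 1) ≤ R.C.a i + R.m :=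
      Nat.findGreatest_is_greatest (P := fun k => R.C.a k ≤ R.C.a i + R.m) (Nat.lt_succ_self k) (by omega)
    rcases hp.stp k (by omega) with h2 | h2 | h2
    · exact h2.1
    · omega
    · omega

/-- **diagonal along a run** -/
theorem diag_run (hf : S3.F2 R p K B bS bV F Vs Xs) (hp : R.Path p) (hj : j < R.n + p.J) (hij : i ≤ j)
    (hi : R.IsA i) (hjA : R.IsA j) (hV : ∀ k, i ≤ k → k ≤ j → S3.lv R k ∈ Vs) :
    R.C.rk j = R.C.rk i + (R.C.a j - R.C.a i) := by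
  induction h : j - i using Nat.strong_induction_on generalizing i with
  | _ d ih =>
    rcases hij.eq_or_lt with e | e
    · subst e; omega
    · obtain ⟨k, k1, k2, k3, k4⟩ := next_a hp hj e hi hjA
      have h1 := ih (j - k) (by omega) k2 k3 (fun l h h' => hV l (by omega) h') rfl
      have h2 := hf.diag i k (by omega) hi k3 k4 (Or.inl (hV i le_rfl hij))
      have := R.C.ha k2
      omega

end Vale.Agent.P106.U.H785.Mtr
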