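import Vale.Agent.P106.U.H785.MtrOk

/-!
# P106 / U / H785 : the frozen path is admissible (helper785)

* `fz_ok` : `j ≤ k`, `a j = a k`, `k ∈ I`, `Hy K I ω` ⇒ `(fz j k).Ok (8 K) ω`.
* `fzk_ok` : the same for `fz k k`.
-/

set_option autoImplicit false

namespace Vale.Agent.P106.U.H785.Mtr

open Finset Vale.Agent.P127 Vale.Agent.P127.Stk
open Vale.Agent.P127.U.CellD
open Vale.Agent.P106.U.Cell

namespace Mtd

variable {Ω π : Type} {D : Mtd Ω π} {K : ℝ} {I : Set ℕ} {ω : Ω} {i j k : ℕ}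

lemma fz_sG (D : Mtd Ω π) (j k i : ℕ) (ω : Ω) : (D.fz j k).s i ω = D.s (max i j) ω := rfl

/-- numbers of the functional of the frozen path -/
lemma fz_ga (D : Mtd Ω π) (j k i : ℕ) (ω : Ω) : ((D.fz j k).F i ω).ga = D.gaL k (D.lt k ω) := rfl

lemma fz_ka (D : Mtd Ω π) (j k i : ℕ) (ω : Ω) : ((D.fz j k).F i ω).ka =
    D.kaL k (D.lt k ω) - ((D.fz j k).s i ω - D.s k ω) * D.g k ω := rfl

lemma fz_al (D : Mtd Ω π) (j k i : ℕ) (ω : Ω) : ((D.fz j k).F i ω).al = D.g k ω := rfl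

lemma fz_cN (D : Mtd Ω π) (j k i : ℕ) (ω : Ω) :
    ((D.fz j k).F i ω).cN ((D.fz j k).l ω) ((D.fz j k).s i ω) = D.cNL k ω := by
  unfold Fu.cN
  rw [fz_ga, fz_ka, fz_al]
  show D.gaL k (D.lt k ω) - (D.kaL k (D.lt k ω) - ((D.fz j k).s i ω - D.s k ω) * D.g k ω) * (D.l ω).w -
    D.g k ω * (D.l ω).N ((D.fz j k).s i ω) = D.cNL k ω
  unfold cNL
  rw [show (D.fz j k).s i ω = D.s k ω + ((D.fz j k).s i ω - D.s k ω) by ring, Ray.N_add]
  ring

lemma g_le (h1 : 1 ≤ K) (h : D.Hy K I ω) (hk : k ∈ I) : |D.g k ω| * q2 (D.a k) ≤ 2 * K := by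
  have a1 := h.a1 _ hk
  have ap := h.ap _ hk
  have hq := q2_pos (D.a k)
  have h2 : q2 (D.rk k) ≤ 1 := Pth.q2_le_one _
  have h3 : |D.g k ω| ≤ |D.al k ω| + |D.al k ω - D.g k ω| := by
    have : D.g k ω = D.al k ω - (D.al k ω - D.g k ω) := by ring
    rw [this]
    refine (abs_sub _ _).trans ?_
    rw [sub_sub_cancel]
  have h4 := mul_le_mul_of_nonneg_right h3 hq.le
  have h5 : K * q2 (D.rk k) ≤ K := by nlinarith
  nlinarith

lemma s_close (D : Mtd Ω π) (h : D.a k ≤ D.a i) (ω : Ω) : |D.s i ω - D.s k ω| ≤ q2 (D.a k) :=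
  rd_sub h (D.t ω)

/-- **the frozen path is admissible** -/
theorem fz_ok (h1 : 1 ≤ K) (h : D.Hy K I ω) (hk : k ∈ I) (ha : D.a j = D.a k) :
    (D.fz j k).Ok (8 * K) ω := by
  have K0 : 0 < K := by linarith
  have q : 0 < q2 (D.rr k) := q2_pos _
  have r0 := h.r0 k hk
  have qs : 12 * K * q2 (D.rr k) ≤ 1 := by
    have h2 : K * q2 (D.rr k) ≤ K ^ 2 * q2 (D.rr k) := by
      rw [pow_two]
      have := mul_le_mul_of_nonneg_right h1 (mul_nonneg K0.le q.le)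
      nlinarith
    linarith
  have ai : ∀ i, D.a k ≤ D.a (max i j) := fun i => ha ▸ D.ha (le_max_right _ _)
  have gk := g_le h1 h hk
  have e := cN_near h1 h hk
  refine ⟨h.v1, h.w1, h.p1, fun i => ?_, fun i => ?_, fun i => ?_, fun i => ?_, fun i i2 hii => ?_⟩
  · rw [fz_cN]
    rw [abs_le] at e
    have n1 := h.n1
    have : K * (4 * K * q2 (D.rr k)) ≤ 1 / 3 := by nlinarith
    have : K * D.cNL k ω ≥ K * (D.un ω - 4 * K * q2 (D.rr k)) :=
      mul_le_mul_of_nonneg_left (by linarith [e.1]) K0.le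
    nlinarith
  · rw [fz_cN]
    rw [abs_le] at e
    have n2 := h.n2
    linarith [e.2]
  · rw [fz_ka, fz_sG]
    have e1 := ka_near D k ω
    have k1 := h.k1 _ hk
    have t1 : |(D.s (max i j) ω - D.s k ω) * D.g k ω| ≤ 2 * K := by
      rw [abs_mul, mul_comm]
      exact (mul_le_mul_of_nonneg_left (s_close D (ai i) ω) (abs_nonneg _)).trans gk
    rw [abs_le] at e1 k1 t1 ⊢
    have h2 : q2 (D.rr k) ≤ 1 := by nlinarith
    constructor <;> linarith [e1.1, e1.2, k1.1, k1.2, t1.1, t1.2]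
  · rw [fz_al]
    show |D.g k ω| * q2 (D.a (max i j)) ≤ 8 * K
    have := mul_le_mul_of_nonneg_left (q2_le (ai i)) (abs_nonneg (D.g k ω))
    linarith
  · have z : ∀ x : ℝ, x = 0 → ∀ n, |x| ≤ 8 * K * q2 n := by
      rintro x rfl n
      rw [abs_zero]
      have := q2_pos n
      positivity
    refine ⟨z _ ?_ _, z _ ?_ _, ?_⟩
    · have sh := Fu.cN_sh ((D.fz j k).F i ω) ((D.fz j k).l ω) ((D.fz j k).s i ω)
        ((D.fz j k).s i2 ω - (D.fz j k).s i ω)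
      rw [add_sub_cancel] at sh
      rw [sh, fz_cN, fz_cN, sub_self]
    · show ((D.fz j k).F i2 ω).ka - (((D.fz j k).F i ω).ka -
        ((D.fz j k).s i2 ω - (D.fz j k).s i ω) * ((D.fz j k).F i ω).al) = 0
      rw [fz_ka, fz_ka, fz_al]
      ring
    · show |((D.fz j k).F i2 ω).al - ((D.fz j k).F i ω).al| * q2 _ ≤ _
      rw [fz_al, fz_al, sub_self, abs_zero, zero_mul]
      have := q2_pos ((D.fz j k).rk i)
      positivity

/-- constants -/
theorem fzk_ok (h1 : 1 ≤ K) (h : D.Hy K I ω) (hk : k ∈ I) : (D.fz k k).Ok (8 * K) ω :=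
  fz_ok h1 h hk rfl

end Mtd

end Vale.Agent.P106.U.H785.Mtr
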