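import Vale.Agent.P106.U.H785.MtrRun

/-!
# P106 / U / H785 : the data `mt`, `mt0` of `S3.F2` (helper785)

* `ofR_mt`, `ofR_mt0` : they are data of the run.
* `YI R p Vs` : indices of the young levels.
* `hy_mt`, `hy_mt0` : `Hy (4 K)` on the support; `p1_mt`, `fz_mt`, `fz_mt0`, .. : the paths are `Ok (32 K)`.
* numbers: `(100 K)^20 ≤ B`, `100 m B ≤ r0`, `μ ≤ B`, `μ ≤ R.C.μ`.
-/

set_option autoImplicit false

namespace Vale.Agent.P106.U.H785.Mtr

open Finset Vale.Agent.P127 Vale.Agent.P127.Stk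
open Vale.Agent.P127.U.CellD
open Vale.Agent.P106.U.Cell

variable {Ω : Type} [Fintype Ω] {τ υ π : Type}
variable {R : S3.Run Ω τ υ} {p : S3.Run.Num} {K c' g' gU : ℝ} {B bS bV μ : ℕ} {F : S3.Pf R π} {Vs Xs : Finset ℕ}
  {o : Fin 7 → ℝ} {o' : ℕ → ℝ} {ω : Ω} {i j k : ℕ}

lemma ofR_mt (hμ : μ ≤ R.C.μ) : OfR R (S3.mt R F μ o o') :=
  ⟨rfl, rfl, rfl, rfl, hμ, fun _ => rfl, fun _ _ => rfl, fun _ _ => rfl⟩

lemma ofR_mt0 (hμ : μ ≤ R.C.μ) : OfR R (S3.mt0 R F μ o o') :=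
  ⟨rfl, rfl, rfl, rfl, hμ, fun _ => rfl, fun _ _ => rfl, fun _ _ => rfl⟩

/-- indices of the young levels -/
def YI (R : S3.Run Ω τ υ) (p : S3.Run.Num) (Vs : Finset ℕ) : Set ℕ := {i | i ≤ R.n + p.J ∧ S3.lv R i ∈ Vs}

/-- the precision of the start slab is large -/
lemma small (h1 : 1 ≤ K) (hB : (100 * K) ^ 20 ≤ (B : ℝ)) {n : ℕ} (hn : B ≤ n) : 192 * K ^ 2 * q2 n ≤ 1 := by
  have e1 : q2 n ≤ q2 B := q2_le hn
  have e2 : (B : ℝ) ≤ 2 ^ B := by
    have : B < 2 ^ B := Nat.lt_two_pow_self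
    exact_mod_cast this.le
  have e3 : 192 * K ^ 2 ≤ (100 * K) ^ 20 := by
    have a : (1 : ℝ) ≤ (100 * K) ^ 18 := one_le_pow₀ (by linarith)
    have b : (100 * K) ^ 20 = (100 * K) ^ 18 * (10000 * K ^ 2) := by ring
    rw [b]
    have : 0 ≤ K ^ 2 := sq_nonneg K
    nlinarith
  have e4 : q2 B * 2 ^ B = 1 := by rw [mul_comm]; exact q2_mul_pow B
  have q := q2_pos B
  calc 192 * K ^ 2 * q2 n ≤ 2 ^ B * q2 B :=
        mul_le_mul (e3.trans (hB.trans e2)) e1 (q2_pos n).le (by positivity)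
    _ = 1 := by rw [mul_comm]; exact e4

section

variable (hok : R.Ok p K c' g' gU) (hf : S3.F2 R p K B bS bV F Vs Xs) (h1 : 1 ≤ K)
  (hB : (100 * K) ^ 20 ≤ (B : ℝ)) (hr : 100 * (R.m * B) ≤ R.r0) (hμB : μ ≤ B) (hμ : μ ≤ R.C.μ)
  (hω : 0 < R.Q.w ω)

include hok hf h1 hB hr hμB hμ hω

/-- **hypotheses of the true letters, numbers of the cap** -/
theorem hy_mt : (S3.mt R F μ o o').Hy (4 * K) (YI R p Vs) ω := by
  have m1 := hok.pth.m1
  have mB : B ≤ R.m * B := Nat.le_mul_of_pos_left B m1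
  have k0 := hok.pth.k0
  have B1 : 1 ≤ B := by
    by_contra hc
    have : B = 0 := by omega
    rw [this] at hB
    have : (1 : ℝ) ≤ (100 * K) ^ 20 := one_le_pow₀ (by linarith)
    norm_num at hB
    linarith
  have rk0 : ∀ i, R.r0 ≤ R.C.rk i := fun i => k0 ▸ R.C.hk (Nat.zero_le i)
  refine (ofR_mt (F := F) (o := o) (o' := o') hμ).hy_run hok h1 hω ?_ (fun i hi => hi.1) ?_ ?_ ?_
  · have := small h1 hB (n := R.C.rk 0) (by rw [k0]; omega)
    have := q2_pos (R.C.rk 0)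
    nlinarith [sq_nonneg K]
  · intro i hi
    have := hf.deep i hi.1 hi.2
    show R.C.rk i + R.m ≤ R.rI i
    have e : R.m ≤ R.m * (B + p.s) := Nat.le_mul_of_pos_right _ (by omega)
    omega
  · exact fun i hi => hf.gvA i hi.1 ω hω
  · intro i _
    refine small h1 hB ?_
    show B ≤ R.C.rk i - μ / 2
    have := rk0 i
    omega

/-- **hypotheses of the true letters, numbers of the precision `rk0`** -/
theorem hy_mt0 (hl : ∀ i, R.r0 ≤ F.rk0 i) : (S3.mt0 R F μ o o').Hy (4 * K) (YI R p Vs) ω := by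
  have m1 := hok.pth.m1
  have mB : B ≤ R.m * B := Nat.le_mul_of_pos_left B m1
  have k0 := hok.pth.k0
  have B1 : 1 ≤ B := by
    by_contra hc
    have : B = 0 := by omega
    rw [this] at hB
    have : (1 : ℝ) ≤ (100 * K) ^ 20 := one_le_pow₀ (by linarith)
    norm_num at hB
    linarith
  refine (ofR_mt0 (F := F) (o := o) (o' := o') hμ).hy_run hok h1 hω ?_ (fun i hi => hi.1) ?_ ?_ ?_
  · have := small h1 hB (n := R.C.rk 0) (by rw [k0]; omega)
    have := q2_pos (R.C.rk 0)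
    nlinarith [sq_nonneg K]
  · intro i hi
    have := hf.deep i hi.1 hi.2
    have l0 := F.l0 i
    show F.rk0 i + R.m ≤ R.rI i
    have e : R.m ≤ R.m * (B + p.s) := Nat.le_mul_of_pos_right _ (by omega)
    omega
  · exact fun i hi => hf.gv0A i hi.1 ω hω
  · intro i _
    refine small h1 hB ?_
    show B ≤ F.rk0 i - μ / 2
    have := hl i
    omega

/-- paths of the letters of young steps -/
theorem pa_mt {σ : ℕ → ℕ} {hσ : Monotone σ} (hI : ∀ k, σ k ∈ YI R p Vs) :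
    ((S3.mt R F μ o o').pa σ hσ).Ok (32 * K) ω := by
  have := Mtd.pa_ok (hσ := hσ) (by linarith) (hy_mt (o := o) (o' := o') hok hf h1 hB hr hμB hμ hω) hI
  rwa [show 8 * (4 * K) = 32 * K by ring] at this

theorem pa_mt0 (hl : ∀ i, R.r0 ≤ F.rk0 i) {σ : ℕ → ℕ} {hσ : Monotone σ} (hI : ∀ k, σ k ∈ YI R p Vs) :
    ((S3.mt0 R F μ o o').pa σ hσ).Ok (32 * K) ω := by
  have := Mtd.pa_ok (hσ := hσ) (by linarith) (hy_mt0 (o := o) (o' := o') hok hf h1 hB hr hμB hμ hω hl) hI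
  rwa [show 8 * (4 * K) = 32 * K by ring] at this

/-- the frozen paths -/
theorem fz_mt (hk : k ∈ YI R p Vs) (ha : R.C.a j = R.C.a k) :
    ((S3.mt R F μ o o').fz j k).Ok (32 * K) ω := by
  have := Mtd.fz_ok (j := j) (by linarith) (hy_mt (o := o) (o' := o') hok hf h1 hB hr hμB hμ hω) hk ha
  rwa [show 8 * (4 * K) = 32 * K by ring] at this

theorem fz_mt0 (hl : ∀ i, R.r0 ≤ F.rk0 i) (hk : k ∈ YI R p Vs) (ha : R.C.a j = R.C.a k) :
    ((S3.mt0 R F μ o o').fz j k).Ok (32 * K) ω := by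
  have := Mtd.fz_ok (j := j) (by linarith) (hy_mt0 (o := o) (o' := o') hok hf h1 hB hr hμB hμ hω hl) hk ha
  rwa [show 8 * (4 * K) = 32 * K by ring] at this

end

end Vale.Agent.P106.U.H785.Mtr
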