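import Vale.Agent.P106.U.H101.TNest
import Vale.Agent.P106.U.H300.GenX

/-!
# P106 / U / H785 : generic offsets for paths whose letters depend on the offsets (helper785)

The paths `Ξ x ω u v z` (label `x`, point `ω` : the path may depend on the word of the point) depend on `u = o 2`, `v = oκ`,
`z = oγ` : the letters of the V windows (`Mtd.fz`). Order of the choice: `o 2`, `oκ`, `oγ`, `o 1`, `o 4`, the others.

* `genK` : one offset, flags, relative radius.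
* `genF` : the offsets of fixed paths (depending on the point) with `o 2` prescribed.
* **`exists_offM`** : one choice of all nine offsets: exceptional events `Bad`, `BadS`, `BadR` of all labels, and two lists of
  events of one number (kappa with `oκ`, gamma with `oγ`).
-/

set_option autoImplicit false

namespace Vale.Agent.P106.U.H785.OffM

open Finset Vale.Agent.P127 Vale.Agent.P127.Stk Vale.Agent.P106.U.Cell
open Vale.Agent.P127.U.CellD (q2 rd Nb q2_pos q2_add q2_mul_pow q2_le)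
open Vale.Agent.P106.U.H300 (wo)
open Vale.Agent.P106.U.H420 (slR BadS)

variable {Ω : Type} [Fintype Ω] {ι κ : Type*}

/-- one offset, flags, relative radius -/
theorem genK (P : Law Ω) (S : Finset ι) (I : ι → Ω → Prop) (n : ι → Ω → ℕ) (z r : ι → Ω → ℝ) {c : ℝ}
    (hr : ∀ x ∈ S, ∀ ω, I x ω → 0 ≤ r x ω ∧ 2 * (2 : ℝ) ^ (n x ω) * r x ω ≤ c) : ∃ ξ : ℝ, 0 < ξ ∧ ξ ≤ 1 ∧
      ∑ x ∈ S, prE P (fun ω => I x ω ∧ Nb (n x ω) (z x ω + ξ) (r x ω)) ≤ c * ∑ x ∈ S, prE P (I x) := by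
  classical
  obtain ⟨ξ, h0, h1, h2⟩ := H101.TN.genw P S I n z r fun x hx ω h => (hr x hx ω h).1
  refine ⟨ξ, h0, h1, h2.trans ?_⟩
  rw [Finset.mul_sum]
  refine Finset.sum_le_sum fun x hx => ?_
  unfold prE Law.ex
  rw [Finset.sum_filter, Finset.mul_sum]
  refine Finset.sum_le_sum fun ω _ => ?_
  by_cases hI : I x ω
  · simp only [hI, if_true]
    have := (hr x hx ω hI).2
    nlinarith [P.nn ω]
  · simp only [hI, if_false, mul_zero, le_refl]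

lemma rad (K : ℝ) (n μ : ℕ) : 2 * (2 : ℝ) ^ n * (K * q2 (n + μ)) = 2 * K * q2 μ := by
  have h := q2_mul_pow n
  rw [q2_add]
  calc 2 * (2 : ℝ) ^ n * (K * (q2 n * q2 μ)) = 2 * K * q2 μ * ((2 : ℝ) ^ n * q2 n) := by ring
    _ = _ := by rw [h, mul_one]

/-- **fixed paths**, `o 2` prescribed -/
theorem genF {τ : ι → Type} (P : Law Ω) (S : Finset ι) (I : ι → Ω → Prop) (C : ∀ x, Ω → Pth Ω (τ x))
    (i b : ι → Ω → ℕ) {K : ℝ} (hK : 0 ≤ K) (μ : ℕ) (hμ : ∀ x ω, (C x ω).μ = μ) {u : ℝ} (hu0 : 0 < u) (hu1 : u ≤ 1) :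
    ∃ o : Fin 7 → ℝ, (∀ k, 0 < o k ∧ o k ≤ 1) ∧ o 2 = u ∧
      (∀ k, k ≠ 2 → k ≠ 4 → ∑ x ∈ S, prE P (fun ω => I x ω ∧ Nb ((C x ω).lv (i x ω) (b x ω) k)
        ((wo (C x ω) o).va (i x ω) (b x ω) ω k + o k) (K * q2 ((C x ω).lv (i x ω) (b x ω) k + μ))) ≤
          2 * K * q2 μ * ∑ x ∈ S, prE P (I x)) ∧
      ∑ x ∈ S, prE P (fun ω => I x ω ∧ Nb ((C x ω).lv (i x ω) (b x ω) 4)
        ((wo (C x ω) o).va (i x ω) (b x ω) ω 4 + o 4) (K * q2 ((C x ω).lv (i x ω) (b x ω) 4 + μ))) +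
      (∑ x ∈ S, prE P (fun ω => I x ω ∧ BadS (wo (C x ω) o) K (i x ω) (b x ω) ω) +
        ∑ x ∈ S, prE P (fun ω => I x ω ∧ H300.BadR (wo (C x ω) o) K (i x ω) (b x ω) ω)) ≤
          6 * K * q2 μ * ∑ x ∈ S, prE P (I x) := by
  classical
  have rd0 : ∀ (n : ℕ), 0 ≤ K * q2 (n + μ) ∧ 2 * (2 : ℝ) ^ n * (K * q2 (n + μ)) ≤ 2 * K * q2 μ := fun n =>
    ⟨mul_nonneg hK (q2_pos _).le, (rad K n μ).le⟩
  obtain ⟨o1, p1, q1, g1⟩ := genK P S I (fun x ω => (C x ω).lv (i x ω) (b x ω) 1)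
    (fun x ω => (C x ω).va (i x ω) (b x ω) ω 1) (fun x ω => K * q2 ((C x ω).lv (i x ω) (b x ω) 1 + μ))
    (c := 2 * K * q2 μ) (fun x _ ω _ => rd0 _)
  obtain ⟨o4, p4, q4, g4⟩ := genK P (S ×ˢ (Finset.univ : Finset (Fin 3))) (fun x ω => I x.1 ω)
    (fun x ω => (![(C x.1 ω).lv (i x.1 ω) (b x.1 ω) 4, (C x.1 ω).rf (i x.1 ω), (C x.1 ω).R (i x.1 ω) (b x.1 ω)] :
      Fin 3 → ℕ) x.2)
    (fun x ω => (![(C x.1 ω).va (i x.1 ω) (b x.1 ω) ω 4, slR (C x.1 ω) (i x.1 ω) (b x.1 ω) ω,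
      slR (C x.1 ω) (i x.1 ω) (b x.1 ω) ω] : Fin 3 → ℝ) x.2)
    (fun x ω => (![K * q2 ((C x.1 ω).lv (i x.1 ω) (b x.1 ω) 4 + μ), K * q2 ((C x.1 ω).rf (i x.1 ω) + μ),
      K * q2 ((C x.1 ω).rf (i x.1 ω) + 5 * μ)] : Fin 3 → ℝ) x.2)
    (c := 2 * K * q2 μ) (by
      rintro ⟨x, j⟩ _ ω _
      fin_cases j
      · exact rd0 _
      · exact rd0 _
      · refine ⟨mul_nonneg hK (q2_pos _).le, ?_⟩
        show 2 * (2 : ℝ) ^ ((C x ω).R (i x ω) (b x ω)) * (K * q2 ((C x ω).rf (i x ω) + 5 * μ)) ≤ 2 * K * q2 μ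
        have hR := (C x ω).R_le_rf (i x ω) (b x ω)
        have h1 : (2 : ℝ) ^ ((C x ω).R (i x ω) (b x ω)) ≤ 2 ^ ((C x ω).rf (i x ω)) :=
          pow_le_pow_right₀ (by norm_num) hR
        have h2 : q2 ((C x ω).rf (i x ω) + 5 * μ) ≤ q2 ((C x ω).rf (i x ω) + μ) := q2_le (by omega)
        have h3 : K * q2 ((C x ω).rf (i x ω) + 5 * μ) ≤ K * q2 ((C x ω).rf (i x ω) + μ) :=
          mul_le_mul_of_nonneg_left h2 hK
        refine le_trans ?_ (rd0 ((C x ω).rf (i x ω))).2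
        have h4 : 0 ≤ K * q2 ((C x ω).rf (i x ω) + 5 * μ) := mul_nonneg hK (q2_pos _).le
        nlinarith [mul_le_mul h1 h3 h4 (by positivity)])
  rw [Finset.sum_product, Finset.sum_product] at g4
  simp only [Fin.sum_univ_three, Matrix.cons_val_zero, Matrix.cons_val_one, Matrix.cons_val_two,
    Matrix.head_cons, Matrix.tail_cons] at g4
  set o' : Fin 7 → ℝ := fun k => if k = 1 then o1 else o4 with ho'
  have key : ∀ k : Fin 7, ∃ ξ : ℝ, (k = 1 → ξ = o1) ∧ (k = 4 → ξ = o4) ∧ (k = 2 → ξ = u) ∧ 0 < ξ ∧ ξ ≤ 1 ∧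
      (k ≠ 2 → k ≠ 4 → ∑ x ∈ S, prE P (fun ω => I x ω ∧ Nb ((C x ω).lv (i x ω) (b x ω) k)
        ((wo (C x ω) o').va (i x ω) (b x ω) ω k + ξ) (K * q2 ((C x ω).lv (i x ω) (b x ω) k + μ))) ≤
          2 * K * q2 μ * ∑ x ∈ S, prE P (I x)) := by
    intro k
    by_cases h1 : k = 1
    · subst h1
      refine ⟨o1, fun _ => rfl, fun h => absurd h (by decide), fun h => absurd h (by decide), p1, q1, fun _ _ => ?_⟩
      simp only [H300.wo_va1]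
      exact g1
    by_cases h4 : k = 4
    · subst h4
      exact ⟨o4, fun h => absurd h (by decide), fun _ => rfl, fun h => absurd h (by decide), p4, q4,
        fun _ h => absurd rfl h⟩
    by_cases h2 : k = 2
    · subst h2
      exact ⟨u, fun h => absurd h (by decide), fun h => absurd h (by decide), fun _ => rfl, hu0, hu1,
        fun h => absurd rfl h⟩
    obtain ⟨ξ, h5, h6, h7⟩ := genK P S I (fun x ω => (C x ω).lv (i x ω) (b x ω) k)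
      (fun x ω => (wo (C x ω) o').va (i x ω) (b x ω) ω k)
      (fun x ω => K * q2 ((C x ω).lv (i x ω) (b x ω) k + μ)) (c := 2 * K * q2 μ) (fun x _ ω _ => rd0 _)
    exact ⟨ξ, fun h => absurd h h1, fun h => absurd h h4, fun h => absurd h h2, h5, h6, fun _ _ => h7⟩
  choose o e1 e4 e2 hp hq hg using key
  have h1 : o 1 = o' 1 := by rw [e1 1 rfl, ho']; simp
  have h4 : o 4 = o' 4 := by rw [e4 4 rfl, ho']; simp
  have h4' : o 4 = o4 := e4 4 rfl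
  refine ⟨o, fun k => ⟨hp k, hq k⟩, e2 2 rfl, ?_, ?_⟩
  · intro k hk2 hk4
    have := hg k hk2 hk4
    simp only [H300.wo_va _ h1 h4]
    exact this
  · have s1 : ∀ x, (fun ω => I x ω ∧ Nb ((C x ω).lv (i x ω) (b x ω) 4)
        ((wo (C x ω) o).va (i x ω) (b x ω) ω 4 + o 4) (K * q2 ((C x ω).lv (i x ω) (b x ω) 4 + μ))) =
        fun ω => I x ω ∧ Nb ((C x ω).lv (i x ω) (b x ω) 4)
        ((C x ω).va (i x ω) (b x ω) ω 4 + o4) (K * q2 ((C x ω).lv (i x ω) (b x ω) 4 + μ)) := by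
      intro x; funext ω
      rw [H300.wo_va4, h4']
    have s2 : ∀ x, (fun ω => I x ω ∧ BadS (wo (C x ω) o) K (i x ω) (b x ω) ω) =
        fun ω => I x ω ∧ Nb ((C x ω).rf (i x ω)) (slR (C x ω) (i x ω) (b x ω) ω + o4)
          (K * q2 ((C x ω).rf (i x ω) + μ)) := by
      intro x; funext ω
      unfold BadS
      rw [H420.wo_slR, ← hμ x ω, ← h4']
      rfl
    have s3 : ∀ x, (fun ω => I x ω ∧ H300.BadR (wo (C x ω) o) K (i x ω) (b x ω) ω) =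
        fun ω => I x ω ∧ Nb ((C x ω).R (i x ω) (b x ω)) (slR (C x ω) (i x ω) (b x ω) ω + o4)
          (K * q2 ((C x ω).rf (i x ω) + 5 * μ)) := by
      intro x; funext ω
      unfold H300.BadR
      rw [H420.wo_slR, H300.wo_R, ← hμ x ω, ← h4']
      rfl
    simp only [s1, s2, s3]
    rw [← Finset.sum_add_distrib, ← Finset.sum_add_distrib]
    have e3 : ∑ x ∈ S, (prE P (I x) + prE P (I x) + prE P (I x)) = 3 * ∑ x ∈ S, prE P (I x) := by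
      rw [Finset.mul_sum]
      exact Finset.sum_congr rfl fun x _ => by ring
    refine le_trans (le_of_eq ?_) (g4.trans (le_of_eq ?_))
    · refine Finset.sum_congr rfl fun x _ => ?_
      ring
    · have e4 : ∑ x ∈ S, ((prE P fun ω => I x ω) + (prE P fun ω => I x ω) + prE P fun ω => I x ω) =
          3 * ∑ x ∈ S, prE P (I x) := e3
      rw [e4]
      ring

open Classical in
/-- **all offsets** : labels `x ∈ S` with paths depending on `o 2, oκ, oγ`; lists `T1`, `T2` of events of one number with the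
offset `oκ`, `oγ` -/
theorem exists_offM {κ' : Type*} {τ : ι → Type} (P : Law Ω) (S : Finset ι) (I : ι → Ω → Prop)
    (Ξ : ∀ x, Ω → ℝ → ℝ → ℝ → Pth Ω (τ x)) (i b : ι → Ω → ℕ) {K : ℝ} (hK : 0 ≤ K) (μ : ℕ)
    (hμ : ∀ x ω u v z, (Ξ x ω u v z).μ = μ) (n2 : ι → Ω → ℕ) (x2 : ι → Ω → ℝ)
    (h2 : ∀ x ω u v z, (Ξ x ω u v z).lv (i x ω) (b x ω) 2 = n2 x ω)
    (h2' : ∀ x ω u v z, (Ξ x ω u v z).va (i x ω) (b x ω) ω 2 = x2 x ω)
    (T1 : Finset κ) (J1 : κ → Ω → Prop) (n1 : κ → Ω → ℕ) (z1 r1 : κ → Ω → ℝ)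
    (hr1 : ∀ y ∈ T1, ∀ ω, J1 y ω → 0 ≤ r1 y ω)
    (T2 : Finset κ') (J2 : κ' → Ω → Prop) (m2 : κ' → Ω → ℕ) (z2 : κ' → Ω → ℝ → ℝ) (r2 : κ' → Ω → ℝ)
    (hr2 : ∀ y ∈ T2, ∀ ω, J2 y ω → 0 ≤ r2 y ω) :
    ∃ (o : Fin 7 → ℝ) (v z : ℝ), (∀ k, 0 < o k ∧ o k ≤ 1) ∧ (0 < v ∧ v ≤ 1) ∧ (0 < z ∧ z ≤ 1) ∧
      ∑ x ∈ S, (prE P (fun ω => I x ω ∧ (wo (Ξ x ω (o 2) v z) o).Bad K (i x ω) (b x ω) ω) +
        prE P (fun ω => I x ω ∧ BadS (wo (Ξ x ω (o 2) v z) o) K (i x ω) (b x ω) ω) +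
        prE P (fun ω => I x ω ∧ H300.BadR (wo (Ξ x ω (o 2) v z) o) K (i x ω) (b x ω) ω)) ≤
          18 * K * q2 μ * ∑ x ∈ S, prE P (I x) ∧
      ∑ y ∈ T1, prE P (fun ω => J1 y ω ∧ Nb (n1 y ω) (z1 y ω + v) (r1 y ω)) ≤
        ∑ y ∈ T1, P.ex (fun ω => if J1 y ω then 2 * (2 : ℝ) ^ (n1 y ω) * r1 y ω else 0) ∧
      ∑ y ∈ T2, prE P (fun ω => J2 y ω ∧ Nb (m2 y ω) (z2 y ω (o 2) + z) (r2 y ω)) ≤
        ∑ y ∈ T2, P.ex (fun ω => if J2 y ω then 2 * (2 : ℝ) ^ (m2 y ω) * r2 y ω else 0) := by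
  obtain ⟨u, hu0, hu1, gu⟩ := genK P S I n2 x2 (fun x ω => K * q2 (n2 x ω + μ)) (c := 2 * K * q2 μ)
    (fun x _ ω _ => ⟨mul_nonneg hK (q2_pos _).le, (rad K _ μ).le⟩)
  obtain ⟨v, hv0, hv1, gv⟩ := H101.TN.genw P T1 J1 n1 z1 r1 hr1
  obtain ⟨z, hz0, hz1, gz⟩ := H101.TN.genw P T2 J2 m2 (fun y ω => z2 y ω u) r2 hr2
  obtain ⟨o, ho, o2, g1, g4⟩ := genF P S I (fun x ω => Ξ x ω u v z) i b hK μ (fun x ω => hμ x ω u v z) hu0 hu1
  refine ⟨o, v, z, ho, ⟨hv0, hv1⟩, ⟨hz0, hz1⟩, ?_, ?_, ?_⟩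
  · rw [o2]
    have hb : ∀ x ∈ S, prE P (fun ω => I x ω ∧ (wo (Ξ x ω u v z) o).Bad K (i x ω) (b x ω) ω) ≤
        ∑ k : Fin 7, prE P (fun ω => I x ω ∧ Nb ((Ξ x ω u v z).lv (i x ω) (b x ω) k)
          ((wo (Ξ x ω u v z) o).va (i x ω) (b x ω) ω k + o k)
          (K * q2 ((Ξ x ω u v z).lv (i x ω) (b x ω) k + μ))) := by
      intro x _
      refine le_trans (le_of_eq ?_) (H300.prE_exists_fin P _)
      congr 1
      funext ω
      unfold Pth.Bad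
      rw [H300.wo_lv, H300.wo_μ, hμ, exists_and_left]
      rfl
    have hs := Finset.sum_le_sum hb
    rw [Finset.sum_comm, ← Finset.add_sum_erase Finset.univ _ (Finset.mem_univ (4 : Fin 7)),
      ← Finset.add_sum_erase (Finset.univ.erase (4 : Fin 7)) _
        (show (2 : Fin 7) ∈ Finset.univ.erase (4 : Fin 7) by decide)] at hs
    have k2 : ∑ x ∈ S, prE P (fun ω => I x ω ∧ Nb ((Ξ x ω u v z).lv (i x ω) (b x ω) 2)
          ((wo (Ξ x ω u v z) o).va (i x ω) (b x ω) ω 2 + o 2)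
          (K * q2 ((Ξ x ω u v z).lv (i x ω) (b x ω) 2 + μ))) ≤ 2 * K * q2 μ * ∑ x ∈ S, prE P (I x) := by
      refine le_trans (le_of_eq ?_) gu
      refine Finset.sum_congr rfl fun x _ => ?_
      congr 1
      funext ω
      have e : (wo (Ξ x ω u v z) o).va (i x ω) (b x ω) ω 2 = x2 x ω := by
        rw [← h2' x ω u v z, Pth.va2, Pth.va2, H300.wo_l, H300.wo_s]
      rw [e, h2, o2]
    have k5 : ∑ k ∈ (Finset.univ.erase (4 : Fin 7)).erase 2, ∑ x ∈ S,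
        prE P (fun ω => I x ω ∧ Nb ((Ξ x ω u v z).lv (i x ω) (b x ω) k)
          ((wo (Ξ x ω u v z) o).va (i x ω) (b x ω) ω k + o k)
          (K * q2 ((Ξ x ω u v z).lv (i x ω) (b x ω) k + μ))) ≤ 5 * (2 * K * q2 μ * ∑ x ∈ S, prE P (I x)) := by
      refine (Finset.sum_le_sum fun k hk => g1 k (Finset.ne_of_mem_erase hk)
        (Finset.ne_of_mem_erase (Finset.mem_of_mem_erase hk))).trans (le_of_eq ?_)
      rw [Finset.sum_const, nsmul_eq_mul, Finset.card_erase_of_mem (by decide), Finset.card_erase_of_mem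
        (Finset.mem_univ _), Finset.card_univ, Fintype.card_fin]
      norm_num
    simp only [Finset.sum_add_distrib]
    nlinarith
  · exact gv
  · rw [o2]
    exact gz

end Vale.Agent.P106.U.H785.OffM
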