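import Vale.Agent.P127.U.PathU

/-!
# P106 / U / H785 : the second word (helper785, after helper384's note 18130 (1))

`P` a finite law, `W` a variable, `al a : Ω → ℝ` the curvature of the window of level `a` (in blocks of
base `B`), known on the side of the ray up to `B ^ (a - RI a)`; consecutive curvatures agree:
`|al (a+1) - al a| ≤ (B-1) B ^ (a + s - RI a)`.

* `Kn a R w` : given `W = w`, the curvature of the level `a` is known up to `B ^ (a - R)` with conditional
  probability at least `1 - c`.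
* `RW a w` : the largest `R ≤ RI a - s` with `Kn a R w`.
* `RW_mono` : `a ↦ RW a w` is nondecreasing.
* `RW_jump` : `RW a w + 3 ≤ RW (a+1) w → RI a ≤ RW a w + 1 + s`.
* `gC a w` : the value; `gC_spec`, `gC_close`.
* `wd` : the second word, a function of `W`; `wd_H_le` : its entropy is at most `(A + 1 + R) log 2`.
* `not_known` : at a level with `RW a w + s < RI a` no value has conditional probability `≥ 1 - c` at the
  precision `B ^ (a - RW a w - 1)`.
* `cond_*` : all this is unchanged under the law conditioned on the word.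
-/

set_option autoImplicit false

namespace Vale.Agent.P106.U.H785

open Finset Vale.Agent.P127 Vale.Agent.P127.Law Vale.Agent.P127.Stk Vale.Agent.P127.U.Path

variable {Ω : Type} [Fintype Ω] {S : Type*}

/-- data of the second word -/
structure Dat (Ω : Type) [Fintype Ω] (S : Type*) where
  P : Law Ω
  W : Ω → S
  al : ℕ → Ω → ℝ
  RI : ℕ → ℕ
  s : ℕ
  B : ℝ
  c : ℝ
  hB2 : 2 ≤ B
  hc0 : 0 ≤ c
  hc1 : c < 1 / 2
  hRI : Monotone RI
  bd : ∀ a ω, |al a ω| ≤ B ^ (a : ℤ)
  ag : ∀ a ω, 0 < P.w ω → |al (a + 1) ω - al a ω| ≤ (B - 1) * B ^ ((a : ℤ) + s - RI a)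

namespace Dat

variable (d : Dat Ω S)

/-- mass of the event `W = w`, `|al a - g| ≤ B ^ (a - R)` -/
noncomputable def ms (Q : Law Ω) (a R : ℕ) (g : ℝ) (w : S) : ℝ :=
  Q.ex fun ω => ind (d.W ω = w ∧ |d.al a ω - g| ≤ d.B ^ ((a : ℤ) - R))

/-- the curvature of the level `a` is known given `W = w` up to `B ^ (a - R)` -/
def Kn (a R : ℕ) (w : S) : Prop := ∃ g : ℝ, (1 - d.c) * d.P.pr d.W w ≤ d.ms d.P a R g w

lemma ind_mono {p q : Prop} (h : p → q) : ind p ≤ ind q := by
  by_cases hp : p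
  · rw [ind_of hp, ind_of (h hp)]
  · rw [ind_not hp]
    by_cases hq : q
    · rw [ind_of hq]; exact zero_le_one
    · rw [ind_not hq]

lemma ind_nonneg (p : Prop) : 0 ≤ ind p := by
  by_cases hp : p
  · rw [ind_of hp]; exact zero_le_one
  · rw [ind_not hp]

lemma ind_le_one (p : Prop) : ind p ≤ 1 := by
  by_cases hp : p
  · rw [ind_of hp]
  · rw [ind_not hp]; exact zero_le_one

lemma hB : 1 < d.B := by linarith [d.hB2]

lemma hB0 : 0 < d.B := zero_lt_one.trans d.hB

lemma zp (z : ℤ) : 0 < d.B ^ z := zpow_pos d.hB0 z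

lemma zp_mono {y z : ℤ} (h : y ≤ z) : d.B ^ y ≤ d.B ^ z := zpow_le_zpow_right₀ d.hB.le h

/-- comparison of masses -/
lemma ms_le (Q : Law Ω) {a a' R R' : ℕ} {g g' : ℝ} {w : S}
    (h : ∀ ω, 0 < Q.w ω → |d.al a ω - g| ≤ d.B ^ ((a : ℤ) - R) →
      |d.al a' ω - g'| ≤ d.B ^ ((a' : ℤ) - R')) :
    d.ms Q a R g w ≤ d.ms Q a' R' g' w :=
  Q.ex_mono fun ω hω => ind_mono fun hp => ⟨hp.1, h ω hω hp.2⟩

lemma Kn_zero (a : ℕ) (w : S) : d.Kn a 0 w := by
  refine ⟨0, ?_⟩
  have h1 : d.P.pr d.W w ≤ d.ms d.P a 0 0 w := by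
    unfold ms
    rw [pr_eq_ex]
    refine d.P.ex_mono fun ω _ => ind_mono fun hp => ⟨hp, ?_⟩
    rw [sub_zero]
    have := d.bd a ω
    simpa using this
  have h2 : 0 ≤ d.P.pr d.W w := d.P.pr_nonneg _ _
  have h3 := d.hc0
  nlinarith

lemma Kn_anti {a R R' : ℕ} {w : S} (h : R' ≤ R) (hk : d.Kn a R w) : d.Kn a R' w := by
  obtain ⟨g, hg⟩ := hk
  refine ⟨g, hg.trans (d.ms_le d.P fun ω _ hp => hp.trans (d.zp_mono ?_))⟩
  omega

/-- knowledge passes to the next level -/
lemma Kn_succ {a R : ℕ} {w : S} (hR : R + d.s ≤ d.RI a) (hk : d.Kn a R w) : d.Kn (a + 1) R w := by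
  obtain ⟨g, hg⟩ := hk
  refine ⟨g, hg.trans (d.ms_le d.P fun ω hω hp => ?_)⟩
  have h1 := d.ag a ω hω
  have h2 : d.B ^ ((a : ℤ) + d.s - d.RI a) ≤ d.B ^ ((a : ℤ) - R) := d.zp_mono (by omega)
  have h3 : |d.al (a + 1) ω - g| ≤ |d.al (a + 1) ω - d.al a ω| + |d.al a ω - g| := by
    have := abs_add_le (d.al (a + 1) ω - d.al a ω) (d.al a ω - g)
    simpa using this
  have h4 : (d.B - 1) * d.B ^ ((a : ℤ) + d.s - d.RI a) ≤ (d.B - 1) * d.B ^ ((a : ℤ) - R) :=
    mul_le_mul_of_nonneg_left h2 (by linarith [d.hB])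
  have h5 : d.B ^ (((a + 1 : ℕ) : ℤ) - R) = d.B * d.B ^ ((a : ℤ) - R) := by
    rw [← zpow_one_add₀ d.hB0.ne']
    congr 1
    push_cast
    ring
  rw [h5]
  nlinarith

/-- knowledge passes to the previous level -/
lemma Kn_pred {a R : ℕ} {w : S} (hR : R + d.s ≤ d.RI a) (h1R : 1 ≤ R)
    (hk : d.Kn (a + 1) (R + 1) w) : d.Kn a (R - 1) w := by
  obtain ⟨g, hg⟩ := hk
  refine ⟨g, hg.trans (d.ms_le d.P fun ω hω hp => ?_)⟩
  have h1 := d.ag a ω hω
  have h2 : d.B ^ ((a : ℤ) + d.s - d.RI a) ≤ d.B ^ ((a : ℤ) - R) := d.zp_mono (by omega)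
  have h3 : |d.al a ω - g| ≤ |d.al (a + 1) ω - d.al a ω| + |d.al (a + 1) ω - g| := by
    have := abs_add_le (-(d.al (a + 1) ω - d.al a ω)) (d.al (a + 1) ω - g)
    rw [abs_neg] at this
    refine le_trans (le_of_eq ?_) this
    congr 1
    ring
  have h4 : (d.B - 1) * d.B ^ ((a : ℤ) + d.s - d.RI a) ≤ (d.B - 1) * d.B ^ ((a : ℤ) - R) :=
    mul_le_mul_of_nonneg_left h2 (by linarith [d.hB])
  have h5 : d.B ^ ((a : ℤ) - ((R - 1 : ℕ) : ℤ)) = d.B * d.B ^ ((a : ℤ) - R) := by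
    rw [← zpow_one_add₀ d.hB0.ne']
    congr 1
    push_cast [h1R]
    ring
  have h6 : d.B ^ (((a + 1 : ℕ) : ℤ) - ((R + 1 : ℕ) : ℤ)) = d.B ^ ((a : ℤ) - R) := by
    congr 1
    push_cast
    ring
  rw [h6] at hp
  rw [h5]
  nlinarith

open Classical in
/-- the largest `R ≤ RI a - s` which is known given `W = w` -/
noncomputable def RW (a : ℕ) (w : S) : ℕ :=
  @Nat.findGreatest (fun R => d.Kn a R w) (Classical.decPred _) (d.RI a - d.s)

lemma RW_le (a : ℕ) (w : S) : d.RW a w ≤ d.RI a - d.s :=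
  @Nat.findGreatest_le (fun R => d.Kn a R w) (Classical.decPred _) _

lemma RW_le' (a : ℕ) (w : S) : d.RW a w ≤ d.RI a := (d.RW_le a w).trans (Nat.sub_le _ _)

lemma RW_kn (a : ℕ) (w : S) : d.Kn a (d.RW a w) w := by
  exact @Nat.findGreatest_spec _ (fun R => d.Kn a R w) (Classical.decPred _) _ (Nat.zero_le _)
    (d.Kn_zero a w)

lemma le_RW {a R : ℕ} {w : S} (h : R ≤ d.RI a - d.s) (hk : d.Kn a R w) : R ≤ d.RW a w := by
  exact @Nat.le_findGreatest _ (fun R => d.Kn a R w) (Classical.decPred _) _ h hk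

lemma not_known {a : ℕ} {w : S} (h : d.RW a w + d.s < d.RI a) : ¬ d.Kn a (d.RW a w + 1) w := by
  intro hk
  have := d.le_RW (by omega) hk
  omega

/-- **the second path is nondecreasing** -/
lemma RW_succ (a : ℕ) (w : S) : d.RW a w ≤ d.RW (a + 1) w := by
  have h1 := d.RW_le a w
  have h2 := d.hRI (Nat.le_succ a)
  rcases Nat.eq_zero_or_pos (d.RW a w) with h0 | h0
  · rw [h0]; exact Nat.zero_le _
  · exact d.le_RW (by have : d.RI a ≤ d.RI (a + 1) := h2; omega)
      (d.Kn_succ (by omega) (d.RW_kn a w))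

lemma RW_mono (w : S) : Monotone (fun a => d.RW a w) := monotone_nat_of_le_succ fun a => d.RW_succ a w

/-- **jumps** : a jump of the second path by at least three blocks starts near the first path -/
lemma RW_jump {a : ℕ} {w : S} (h : d.RW a w + 3 ≤ d.RW (a + 1) w) :
    d.RI a ≤ d.RW a w + 1 + d.s := by
  by_contra hcon
  push Not at hcon
  have h1 : d.Kn (a + 1) (d.RW a w + 2 + 1) w := d.Kn_anti h (d.RW_kn (a + 1) w)
  have h2 : d.Kn a (d.RW a w + 2 - 1) w := d.Kn_pred (by omega) (by omega) h1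
  exact d.not_known (by omega) h2

/-! ### the value -/

/-- the value of the curvature given `W = w` -/
noncomputable def gC (a : ℕ) (w : S) : ℝ := (d.RW_kn a w).choose

lemma gC_spec (a : ℕ) (w : S) :
    (1 - d.c) * d.P.pr d.W w ≤ d.ms d.P a (d.RW a w) (d.gC a w) w := (d.RW_kn a w).choose_spec

/-- total mass of the exceptional event of the level `a` -/
lemma bad_le (a : ℕ) :
    d.P.ex (fun ω => ind (d.B ^ ((a : ℤ) - d.RW a (d.W ω)) < |d.al a ω - d.gC a (d.W ω)|)) ≤ d.c := by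
  classical
  have h1 : d.P.ex (fun ω => ind (d.B ^ ((a : ℤ) - d.RW a (d.W ω)) < |d.al a ω - d.gC a (d.W ω)|)) =
      1 - d.P.ex (fun ω => ind (|d.al a ω - d.gC a (d.W ω)| ≤ d.B ^ ((a : ℤ) - d.RW a (d.W ω)))) := by
    have e1 : (1 : ℝ) = d.P.ex (fun _ => (1 : ℝ)) := (d.P.ex_const 1).symm
    rw [e1, ← d.P.ex_sub]
    refine d.P.ex_congr fun ω _ => ?_
    by_cases hp : |d.al a ω - d.gC a (d.W ω)| ≤ d.B ^ ((a : ℤ) - d.RW a (d.W ω))
    · rw [ind_of hp, ind_not (not_lt.2 hp)]; ring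
    · rw [ind_not hp, ind_of (not_le.1 hp)]; ring
  have h2 : d.P.ex (fun ω => ind (|d.al a ω - d.gC a (d.W ω)| ≤ d.B ^ ((a : ℤ) - d.RW a (d.W ω)))) =
      ∑ w ∈ img d.W, d.ms d.P a (d.RW a w) (d.gC a w) w := by
    unfold ms
    unfold Law.ex
    rw [Finset.sum_comm]
    refine Finset.sum_congr rfl fun ω _ => ?_
    rw [← Finset.mul_sum]
    congr 1
    rw [Finset.sum_eq_single (d.W ω)]
    · exact congrArg ind (propext ⟨fun h => ⟨rfl, h⟩, fun h => h.2⟩)
    · intro w _ hw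
      exact ind_not fun h => hw h.1.symm
    · intro h
      exact absurd (mem_img.2 ⟨ω, rfl⟩) h
  have h3 : ∑ w ∈ img d.W, (1 - d.c) * d.P.pr d.W w ≤
      ∑ w ∈ img d.W, d.ms d.P a (d.RW a w) (d.gC a w) w :=
    Finset.sum_le_sum fun w _ => d.gC_spec a w
  rw [← Finset.mul_sum, d.P.sum_pr_image] at h3
  rw [h1, h2]
  linarith

/-- consecutive values agree -/
lemma gC_close (a : ℕ) {w : S} (hw : 0 < d.P.pr d.W w) (hs : d.s ≤ d.RI a) :
    |d.gC (a + 1) w - d.gC a w| ≤ 2 * d.B ^ ((a : ℤ) + 1 - d.RW a w) := by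
  classical
  -- a common point of the two events
  have key : ∃ ω, 0 < d.P.w ω ∧ |d.al a ω - d.gC a w| ≤ d.B ^ ((a : ℤ) - d.RW a w) ∧
      |d.al (a + 1) ω - d.gC (a + 1) w| ≤ d.B ^ (((a + 1 : ℕ) : ℤ) - d.RW (a + 1) w) := by
    by_contra hcon
    push Not at hcon
    have h1 := d.gC_spec a w
    have h2 := d.gC_spec (a + 1) w
    have h3 : d.ms d.P a (d.RW a w) (d.gC a w) w + d.ms d.P (a + 1) (d.RW (a + 1) w) (d.gC (a + 1) w) w
        ≤ d.P.pr d.W w := by
      unfold ms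
      rw [← d.P.ex_add, pr_eq_ex]
      refine d.P.ex_mono fun ω hω => ?_
      by_cases hp : d.W ω = w
      · rw [ind_of hp]
        by_cases hq : |d.al a ω - d.gC a w| ≤ d.B ^ ((a : ℤ) - d.RW a w)
        · have h4 := hcon ω hω hq
          rw [ind_of ⟨hp, hq⟩, ind_not (fun h => absurd h.2 (not_le.2 h4))]
          norm_num
        · rw [ind_not (fun h => hq h.2), zero_add]
          exact ind_le_one _
      · rw [ind_not (fun h => hp h.1), ind_not (fun h => hp h.1), ind_not hp]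
        norm_num
    have h5 := d.hc1
    nlinarith
  obtain ⟨ω, hω, h1, h2⟩ := key
  have h3 := d.ag a ω hω
  have h4 := d.RW_le a w
  have h5 : d.B ^ ((a : ℤ) + d.s - d.RI a) ≤ d.B ^ ((a : ℤ) - d.RW a w) := d.zp_mono (by omega)
  have h6 : (d.B - 1) * d.B ^ ((a : ℤ) + d.s - d.RI a) ≤ (d.B - 1) * d.B ^ ((a : ℤ) - d.RW a w) :=
    mul_le_mul_of_nonneg_left h5 (by linarith [d.hB])
  have h7 : d.B ^ (((a + 1 : ℕ) : ℤ) - d.RW (a + 1) w) ≤ d.B ^ ((a : ℤ) + 1 - d.RW a w) := by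
    refine d.zp_mono ?_
    have := d.RW_succ a w
    push_cast
    omega
  have h8 : d.B ^ ((a : ℤ) + 1 - d.RW a w) = d.B * d.B ^ ((a : ℤ) - d.RW a w) := by
    rw [← zpow_one_add₀ d.hB0.ne']
    congr 1
    ring
  have h9 : |d.gC (a + 1) w - d.gC a w| ≤ |d.al (a + 1) ω - d.gC (a + 1) w| +
      (|d.al (a + 1) ω - d.al a ω| + |d.al a ω - d.gC a w|) := by
    have e : d.gC (a + 1) w - d.gC a w = -(d.al (a + 1) ω - d.gC (a + 1) w) +
        ((d.al (a + 1) ω - d.al a ω) + (d.al a ω - d.gC a w)) := by ring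
    rw [e]
    refine (abs_add_le _ _).trans ?_
    rw [abs_neg]
    gcongr
    exact abs_add_le _ _
  rw [h8] at h7 ⊢
  nlinarith

/-- the values of two levels agree -/
lemma gC_close_multi (a : ℕ) {w : S} (hw : 0 < d.P.pr d.W w) (hs : d.s ≤ d.RI a) (k : ℕ) :
    |d.gC (a + k) w - d.gC a w| ≤ 4 * d.B ^ (((a + k : ℕ) : ℤ) - d.RW a w) := by
  induction k with
  | zero =>
    simp only [add_zero, sub_self, abs_zero]
    exact mul_nonneg (by norm_num) (d.zp _).le
  | succ k ih =>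
    have h1 := d.gC_close (a + k) hw (hs.trans (d.hRI (Nat.le_add_right a k)))
    have h2 : d.B ^ (((a + k : ℕ) : ℤ) + 1 - d.RW (a + k) w) ≤
        d.B ^ (((a + (k + 1) : ℕ) : ℤ) - d.RW a w) := by
      refine d.zp_mono ?_
      have := d.RW_mono w (Nat.le_add_right a k)
      simp only at this
      push_cast
      omega
    have h3 : d.B ^ (((a + (k + 1) : ℕ) : ℤ) - d.RW a w) =
        d.B * d.B ^ (((a + k : ℕ) : ℤ) - d.RW a w) := by
      rw [← zpow_one_add₀ d.hB0.ne']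
      congr 1
      push_cast
      ring
    have h4 : |d.gC (a + (k + 1)) w - d.gC a w| ≤ |d.gC (a + k + 1) w - d.gC (a + k) w| +
        |d.gC (a + k) w - d.gC a w| := by
      have e : d.gC (a + (k + 1)) w - d.gC a w = (d.gC (a + k + 1) w - d.gC (a + k) w) +
        (d.gC (a + k) w - d.gC a w) := by
        rw [← add_assoc]; ring
      rw [e]
      exact abs_add_le _ _
    have h5 := d.zp (((a + k : ℕ) : ℤ) - d.RW a w)
    have h6 := d.hB2
    rw [h3] at h2 ⊢
    nlinarith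

/-- **no flat stretch** : below the first path the second path goes up diagonally -/
lemma RW_diag (a : ℕ) (w : S) (k : ℕ) (hk : d.RW a w + k + d.s ≤ d.RI a) :
    d.RW a w + k ≤ d.RW (a + k) w + 1 := by
  rcases Nat.eq_zero_or_pos (d.RW a w + k) with h0 | h0
  · omega
  -- the total change of the curvature
  have key : ∀ j, ∀ ω, 0 < d.P.w ω →
      |d.al (a + j) ω - d.al a ω| ≤ d.B ^ (((a + j : ℕ) : ℤ) + d.s - d.RI a) := by
    intro j ω hω
    induction j with
    | zero =>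
      simp only [add_zero, sub_self, abs_zero]
      exact (d.zp _).le
    | succ j ih =>
      have h1 := d.ag (a + j) ω hω
      have h2 : d.B ^ (((a + j : ℕ) : ℤ) + d.s - d.RI (a + j)) ≤
          d.B ^ (((a + j : ℕ) : ℤ) + d.s - d.RI a) := by
        refine d.zp_mono ?_
        have := d.hRI (Nat.le_add_right a j)
        omega
      have h3 : d.B ^ (((a + (j + 1) : ℕ) : ℤ) + d.s - d.RI a) =
          d.B * d.B ^ (((a + j : ℕ) : ℤ) + d.s - d.RI a) := by
        rw [← zpow_one_add₀ d.hB0.ne']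
        congr 1
        push_cast
        ring
      have h4 : |d.al (a + (j + 1)) ω - d.al a ω| ≤ |d.al (a + j + 1) ω - d.al (a + j) ω| +
          |d.al (a + j) ω - d.al a ω| := by
        have e : d.al (a + (j + 1)) ω - d.al a ω = (d.al (a + j + 1) ω - d.al (a + j) ω) +
          (d.al (a + j) ω - d.al a ω) := by
          rw [← add_assoc]; ring
        rw [e]
        exact abs_add_le _ _
      have h5 : (d.B - 1) * d.B ^ (((a + j : ℕ) : ℤ) + d.s - d.RI (a + j)) ≤
          (d.B - 1) * d.B ^ (((a + j : ℕ) : ℤ) + d.s - d.RI a) :=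
        mul_le_mul_of_nonneg_left h2 (by linarith [d.hB])
      rw [h3]
      nlinarith
  have hkn : d.Kn (a + k) (d.RW a w + k - 1) w := by
    obtain ⟨g, hg⟩ := d.RW_kn a w
    refine ⟨g, hg.trans (d.ms_le d.P fun ω hω hp => ?_)⟩
    have h1 := key k ω hω
    have h2 : d.B ^ (((a + k : ℕ) : ℤ) + d.s - d.RI a) ≤ d.B ^ ((a : ℤ) - d.RW a w) := by
      refine d.zp_mono ?_
      push_cast
      omega
    have h3 : |d.al (a + k) ω - g| ≤ |d.al (a + k) ω - d.al a ω| + |d.al a ω - g| := by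
      have e : d.al (a + k) ω - g = (d.al (a + k) ω - d.al a ω) + (d.al a ω - g) := by ring
      rw [e]
      exact abs_add_le _ _
    have h4 : d.B ^ (((a + k : ℕ) : ℤ) - ((d.RW a w + k - 1 : ℕ) : ℤ)) =
        d.B * d.B ^ ((a : ℤ) - d.RW a w) := by
      rw [← zpow_one_add₀ d.hB0.ne']
      congr 1
      push_cast [h0]
      ring
    have h5 := d.hB2
    have h6 := d.zp ((a : ℤ) - d.RW a w)
    rw [h4]
    nlinarith
  have h7 := d.hRI (Nat.le_add_right a k)
  have := d.le_RW (a := a + k) (R := d.RW a w + k - 1) (w := w) (by omega) hkn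
  omega

/-! ### the word -/

/-- the second word : the path of `W` on the levels `≤ A` -/
noncomputable def wd (A : ℕ) (w : S) : Fin (A + 1) → ℕ := fun a => d.RW a w

/-- the set which encodes the word -/
noncomputable def wset (A Rm : ℕ) (w : S) : Finset (Fin (A + Rm + 1)) :=
  Finset.univ.filter fun x => ∃ a : Fin (A + 1), d.RW a w + a = x

lemma wset_inj {A Rm : ℕ} (hR : d.RI A ≤ Rm) {w w' : S} (h : d.wset A Rm w = d.wset A Rm w') :
    d.wd A w = d.wd A w' := by
  classical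
  have hbd : ∀ (v : S) (a : Fin (A + 1)), d.RW a v + a < A + Rm + 1 := by
    intro v a
    have h1 := d.RW_le' a v
    have h2 := d.hRI (Nat.lt_succ_iff.1 a.2)
    have h3 := a.2
    omega
  -- the increasing enumeration
  have hf : ∀ v : S, StrictMono fun a : Fin (A + 1) => (⟨d.RW a v + a, hbd v a⟩ : Fin (A + Rm + 1)) := by
    intro v a b hab
    have h1 := d.RW_mono v (show (a : ℕ) ≤ b from hab.le)
    simp only at h1
    have h2 : (a : ℕ) < b := hab
    show d.RW a v + a < d.RW b v + b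
    omega
  have hmem : ∀ (v : S) (a : Fin (A + 1)),
      (⟨d.RW a v + a, hbd v a⟩ : Fin (A + Rm + 1)) ∈ d.wset A Rm v := by
    intro v a
    unfold wset
    rw [Finset.mem_filter]
    exact ⟨Finset.mem_univ _, a, rfl⟩
  have himg : ∀ v : S, d.wset A Rm v =
      Finset.univ.image fun a : Fin (A + 1) => (⟨d.RW a v + a, hbd v a⟩ : Fin (A + Rm + 1)) := by
    intro v
    ext x
    rw [Finset.mem_image]
    constructor
    · intro hx
      unfold wset at hx
      rw [Finset.mem_filter] at hx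
      obtain ⟨_, a, ha⟩ := hx
      exact ⟨a, Finset.mem_univ _, Fin.ext ha⟩
    · rintro ⟨a, _, rfl⟩
      exact hmem v a
  have hcard : ∀ v : S, (d.wset A Rm v).card = A + 1 := by
    intro v
    rw [himg v, Finset.card_image_of_injective _ (hf v).injective, Finset.card_univ, Fintype.card_fin]
  have h1 := Finset.orderEmbOfFin_unique (hcard w) (hmem w) (hf w)
  have h2 := Finset.orderEmbOfFin_unique (hcard w) (fun a => h ▸ hmem w' a) (hf w')
  have h3 := h1.trans h2.symm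
  funext a
  have h4 := congrArg Fin.val (congrFun h3 a)
  simp only at h4
  show d.RW a w = d.RW a w'
  omega

/-- **the entropy of the second word** -/
theorem wd_H_le (Q : Law Ω) {A Rm : ℕ} (hR : d.RI A ≤ Rm) :
    Q.H (fun ω => d.wd A (d.W ω)) ≤ (A + Rm + 1 : ℕ) * Real.log 2 := by
  classical
  have h1 : Q.H (fun ω => d.wd A (d.W ω)) ≤ Q.H (fun ω => d.wset A Rm (d.W ω)) :=
    Q.H_mono fun ω ω' h => d.wset_inj hR h
  have h2 := Q.H_le_log_card (fun ω => d.wset A Rm (d.W ω))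
  rw [Fintype.card_finset, Fintype.card_fin] at h2
  push_cast at h2
  rw [Real.log_pow] at h2
  exact h1.trans h2

/-! ### the conditioned law -/

/-- `Q` has the same conditional laws given `W` as `P`, and the word `E` -/
structure Cnd2 (Q : Law Ω) (A : ℕ) (E : Fin (A + 1) → ℕ) : Prop where
  ac : ∀ ω, 0 < Q.w ω → 0 < d.P.w ω
  wd : ∀ ω, 0 < Q.w ω → d.wd A (d.W ω) = E
  same : ∀ w, 0 < Q.pr d.W w → ∀ F : Ω → Prop,
    Q.ex (fun ω => ind (d.W ω = w ∧ F ω)) * d.P.pr d.W w =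
      d.P.ex (fun ω => ind (d.W ω = w ∧ F ω)) * Q.pr d.W w

/-- conditioning on the second word, and on any other function of `W` -/
theorem cnd2_of {T : Type*} (A : ℕ) (f : S → T) (E : Fin (A + 1) → ℕ) (t : T)
    (h : 0 < d.P.pr (fun ω => (d.wd A (d.W ω), f (d.W ω))) (E, t)) :
    d.Cnd2 (d.P.cond (fun ω => (d.wd A (d.W ω), f (d.W ω))) (E, t)) A E := by
  classical
  set Z : Ω → (Fin (A + 1) → ℕ) × T := fun ω => (d.wd A (d.W ω), f (d.W ω)) with hZ
  have hw : ∀ ω, (d.P.cond Z (E, t)).w ω = if Z ω = (E, t) then d.P.w ω / d.P.pr Z (E, t) else 0 := by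
    intro ω
    convert d.P.cond_w Z (E, t) h ω
  refine ⟨fun ω hω => ?_, fun ω hω => ?_, fun w hw0 F => ?_⟩
  · rw [hw] at hω
    split_ifs at hω with hc
    · by_contra hcon
      push Not at hcon
      have := div_nonpos_of_nonpos_of_nonneg hcon h.le
      linarith
    · exact absurd hω (lt_irrefl _)
  · rw [hw] at hω
    split_ifs at hω with hc
    · exact congrArg Prod.fst hc
    · exact absurd hω (lt_irrefl _)
  · -- on `W = w` the density is constant
    have hE : (d.wd A w, f w) = (E, t) := by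
      rw [pr_eq_ex] at hw0
      by_contra hne
      have : (d.P.cond Z (E, t)).ex (fun ω => ind (d.W ω = w)) ≤ 0 := by
        unfold Law.ex
        refine Finset.sum_nonpos fun ω _ => ?_
        dsimp only
        rw [hw]
        split_ifs with hc
        · have : d.W ω ≠ w := by
            intro h'
            rw [← h'] at hne
            exact hne hc
          rw [ind_not this, mul_zero]
        · rw [zero_mul]
      linarith
    have key : ∀ G : Ω → Prop, (d.P.cond Z (E, t)).ex (fun ω => ind (d.W ω = w ∧ G ω)) =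
        d.P.ex (fun ω => ind (d.W ω = w ∧ G ω)) / d.P.pr Z (E, t) := by
      intro G
      unfold Law.ex
      rw [Finset.sum_div]
      refine Finset.sum_congr rfl fun ω _ => ?_
      dsimp only
      rw [hw]
      by_cases hG : d.W ω = w ∧ G ω
      · have hc : Z ω = (E, t) := by
          show (d.wd A (d.W ω), f (d.W ω)) = (E, t)
          rw [hG.1]
          exact hE
        rw [if_pos hc, ind_of hG]
        ring
      · rw [ind_not hG]
        ring
    have k1 : (d.P.cond Z (E, t)).pr d.W w = d.P.pr d.W w / d.P.pr Z (E, t) := by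
      rw [pr_eq_ex, pr_eq_ex]
      have := key (fun _ => True)
      simpa using this
    rw [key F, k1]
    ring

variable {d}

lemma Cnd2.pr_pos {Q : Law Ω} {A : ℕ} {E : Fin (A + 1) → ℕ} (h : d.Cnd2 Q A E) {w : S}
    (hw : 0 < Q.pr d.W w) : 0 < d.P.pr d.W w := by
  classical
  have : ∃ ω, 0 < Q.w ω ∧ d.W ω = w := by
    by_contra hcon
    push Not at hcon
    rw [pr_eq_ex] at hw
    have : Q.ex (fun ω => ind (d.W ω = w)) ≤ 0 := by
      unfold Law.ex
      refine Finset.sum_nonpos fun ω _ => ?_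
      dsimp only
      rcases (Q.nn ω).eq_or_lt with h0 | h0
      · rw [← h0, zero_mul]
      · rw [ind_not (hcon ω h0), mul_zero]
    linarith
  obtain ⟨ω, hω, rfl⟩ := this
  exact d.P.pr_pos d.W (h.ac ω hω)

/-- masses under the conditioned law -/
lemma Cnd2.ms_eq {Q : Law Ω} {A : ℕ} {E : Fin (A + 1) → ℕ} (h : d.Cnd2 Q A E) {w : S}
    (hw : 0 < Q.pr d.W w) (a R : ℕ) (g : ℝ) :
    d.ms Q a R g w * d.P.pr d.W w = d.ms d.P a R g w * Q.pr d.W w :=
  h.same w hw _

lemma Cnd2.RW_eq {Q : Law Ω} {A : ℕ} {E : Fin (A + 1) → ℕ} (h : d.Cnd2 Q A E) {ω : Ω}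
    (hω : 0 < Q.w ω) (a : Fin (A + 1)) : d.RW a (d.W ω) = E a :=
  congrFun (h.wd ω hω) a

/-- the value under the conditioned law -/
lemma Cnd2.gC_spec {Q : Law Ω} {A : ℕ} {E : Fin (A + 1) → ℕ} (h : d.Cnd2 Q A E) {w : S}
    (hw : 0 < Q.pr d.W w) (a : ℕ) :
    (1 - d.c) * Q.pr d.W w ≤ d.ms Q a (d.RW a w) (d.gC a w) w := by
  have h1 := h.pr_pos hw
  have h2 := h.ms_eq hw a (d.RW a w) (d.gC a w)
  have h3 := d.gC_spec a w
  have h4 : (1 - d.c) * Q.pr d.W w * d.P.pr d.W w ≤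
      d.ms Q a (d.RW a w) (d.gC a w) w * d.P.pr d.W w := by
    rw [h2]
    have := mul_le_mul_of_nonneg_right h3 hw.le
    linarith
  exact le_of_mul_le_mul_right h4 h1

/-- **type (ii)** : no value is known under the conditioned law, for EVERY value of `W` -/
lemma Cnd2.not_known {Q : Law Ω} {A : ℕ} {E : Fin (A + 1) → ℕ} (h : d.Cnd2 Q A E) {ω : Ω}
    (hω : 0 < Q.w ω) (a : Fin (A + 1)) (ha : E a + d.s < d.RI a) (g : ℝ) :
    d.ms Q a (E a + 1) g (d.W ω) < (1 - d.c) * Q.pr d.W (d.W ω) := by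
  have hw : 0 < Q.pr d.W (d.W ω) := Q.pr_pos d.W hω
  have h1 := h.pr_pos hw
  have h2 := h.ms_eq hw a (E a + 1) g
  have h3 := h.RW_eq hω a
  have h4 : ¬ d.Kn a (E a + 1) (d.W ω) := by
    rw [← h3]
    exact d.not_known (by rw [h3]; exact ha)
  have h5 : d.ms d.P a (E a + 1) g (d.W ω) < (1 - d.c) * d.P.pr d.W (d.W ω) := by
    by_contra hcon
    push Not at hcon
    exact h4 ⟨g, hcon⟩
  have h6 : d.ms Q a (E a + 1) g (d.W ω) * d.P.pr d.W (d.W ω) <
      (1 - d.c) * Q.pr d.W (d.W ω) * d.P.pr d.W (d.W ω) := by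
    rw [h2]
    have := mul_lt_mul_of_pos_right h5 hw
    linarith
  exact lt_of_mul_lt_mul_right h6 h1.le

/-- the exceptional event of the level `a` under the conditioned law -/
lemma Cnd2.bad_le {Q : Law Ω} {A : ℕ} {E : Fin (A + 1) → ℕ} (h : d.Cnd2 Q A E) (a : ℕ) :
    Q.ex (fun ω => ind (d.B ^ ((a : ℤ) - d.RW a (d.W ω)) < |d.al a ω - d.gC a (d.W ω)|)) ≤ d.c := by
  classical
  have h1 : Q.ex (fun ω => ind (d.B ^ ((a : ℤ) - d.RW a (d.W ω)) < |d.al a ω - d.gC a (d.W ω)|)) =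
      1 - Q.ex (fun ω => ind (|d.al a ω - d.gC a (d.W ω)| ≤ d.B ^ ((a : ℤ) - d.RW a (d.W ω)))) := by
    have e1 : (1 : ℝ) = Q.ex (fun _ => (1 : ℝ)) := (Q.ex_const 1).symm
    rw [e1, ← Q.ex_sub]
    refine Q.ex_congr fun ω _ => ?_
    by_cases hp : |d.al a ω - d.gC a (d.W ω)| ≤ d.B ^ ((a : ℤ) - d.RW a (d.W ω))
    · rw [ind_of hp, ind_not (not_lt.2 hp)]; ring
    · rw [ind_not hp, ind_of (not_le.1 hp)]; ring
  have h2 : Q.ex (fun ω => ind (|d.al a ω - d.gC a (d.W ω)| ≤ d.B ^ ((a : ℤ) - d.RW a (d.W ω)))) =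
      ∑ w ∈ img d.W, d.ms Q a (d.RW a w) (d.gC a w) w := by
    unfold ms
    unfold Law.ex
    rw [Finset.sum_comm]
    refine Finset.sum_congr rfl fun ω _ => ?_
    rw [← Finset.mul_sum]
    congr 1
    rw [Finset.sum_eq_single (d.W ω)]
    · exact congrArg ind (propext ⟨fun h => ⟨rfl, h⟩, fun h => h.2⟩)
    · intro w _ hw
      exact ind_not fun h => hw h.1.symm
    · intro h
      exact absurd (mem_img.2 ⟨ω, rfl⟩) h
  have h3 : ∑ w ∈ img d.W, (1 - d.c) * Q.pr d.W w ≤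
      ∑ w ∈ img d.W, d.ms Q a (d.RW a w) (d.gC a w) w := by
    refine Finset.sum_le_sum fun w _ => ?_
    rcases (Q.pr_nonneg d.W w).eq_or_lt with h0 | h0
    · rw [← h0, mul_zero]
      exact Q.ex_nonneg fun ω _ => ind_nonneg _
    · exact h.gC_spec h0 a
  rw [← Finset.mul_sum, Q.sum_pr_image] at h3
  rw [h1, h2]
  linarith

end Dat

end Vale.Agent.P106.U.H785
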